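import Vale.Agent.P262.H698.Basic

/-!
# P262, block ROT, part 4: moves inside one fibre
-/

set_option linter.all false

open MeasureTheory ProbabilityTheory Set
open scoped ENNReal RealInnerProductSpace

namespace Vale.Agent.P262.H698

open Vale.Agent.P262.H395

lemma gpdf_form (r : ℝ) :
    gaussianPDFReal 0 1 r = (√(2 * Real.pi))⁻¹ * Real.exp (-(r ^ 2) / 2) := by
  simp [gaussianPDFReal]

lemma inv_sqrt_le_one : (√(2 * Real.pi))⁻¹ ≤ 1 := by
  apply inv_le_one_of_one_le₀
  rw [Real.one_le_sqrt]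
  have := Real.pi_gt_three
  linarith

lemma inv_sqrt_pos : 0 < (√(2 * Real.pi))⁻¹ := by
  have := Real.pi_pos
  positivity

/-- lower bound for a Gaussian tail -/
lemma tail_lower {t M : ℝ} (ht : 0 ≤ t) (hM : 1 ≤ M) :
    ENNReal.ofReal (gaussianPDFReal 0 1 (t + 1 / M) / M) ≤ gaussianReal 0 1 (Ici t) := by
  have hM0 : 0 < M := by linarith
  have h1 : gaussianReal 0 1 (Icc t (t + 1 / M)) ≤ gaussianReal 0 1 (Ici t) :=
    measure_mono Icc_subset_Ici_self
  refine le_trans ?_ h1
  rw [gaussianReal_apply 0 one_ne_zero]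
  calc ENNReal.ofReal (gaussianPDFReal 0 1 (t + 1 / M) / M)
      = ∫⁻ _ in Icc t (t + 1 / M), ENNReal.ofReal (gaussianPDFReal 0 1 (t + 1 / M)) := by
        rw [lintegral_const, Measure.restrict_apply MeasurableSet.univ, univ_inter,
          Real.volume_Icc, ← ENNReal.ofReal_mul (gaussianPDFReal_nonneg _ _ _)]
        congr 1
        ring
    _ ≤ ∫⁻ x in Icc t (t + 1 / M), gaussianPDF 0 1 x := by
        apply setLIntegral_mono' measurableSet_Icc
        intro x hx
        unfold gaussianPDF
        apply ENNReal.ofReal_le_ofReal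
        rw [gpdf_form, gpdf_form]
        have : x ^ 2 ≤ (t + 1 / M) ^ 2 := by
          apply pow_le_pow_left₀ (by linarith [hx.1]) hx.2
        gcongr

/-- half of the mass is above a nonpositive level -/
lemma half_le_tail {t : ℝ} (ht : t ≤ 0) : ENNReal.ofReal (1 / 2) ≤ gaussianReal 0 1 (Ici t) := by
  have h0 : gaussianReal 0 1 (Iio (0:ℝ)) = gaussianReal 0 1 (Ioi (0:ℝ)) := by
    have h := gaussianReal_map_neg (μ := 0) (v := 1)
    rw [neg_zero] at h
    conv_lhs => rw [← h]
    rw [Measure.map_apply measurable_neg measurableSet_Iio]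
    congr 1
    ext x
    simp
  have h1 : gaussianReal 0 1 (Iio (0:ℝ)) + gaussianReal 0 1 (Ici (0:ℝ)) = 1 := by
    have := measure_add_measure_compl (μ := gaussianReal 0 1) (s := Iio (0:ℝ)) measurableSet_Iio
    rwa [compl_Iio, measure_univ] at this
  have h2 : gaussianReal 0 1 (Iio (0:ℝ)) ≤ gaussianReal 0 1 (Ici (0:ℝ)) := by
    rw [h0]
    exact measure_mono Ioi_subset_Ici_self
  have h3 : (1:ℝ≥0∞) ≤ 2 * gaussianReal 0 1 (Ici (0:ℝ)) := by
    calc (1:ℝ≥0∞) = gaussianReal 0 1 (Iio (0:ℝ)) + gaussianReal 0 1 (Ici (0:ℝ)) := h1.symm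
      _ ≤ gaussianReal 0 1 (Ici (0:ℝ)) + gaussianReal 0 1 (Ici (0:ℝ)) := by gcongr
      _ = 2 * gaussianReal 0 1 (Ici (0:ℝ)) := (two_mul _).symm
  have h4 : ENNReal.ofReal (1 / 2) ≤ gaussianReal 0 1 (Ici (0:ℝ)) := by
    rw [ENNReal.ofReal_div_of_pos (by norm_num)]
    simp only [ENNReal.ofReal_one, ENNReal.ofReal_ofNat]
    rw [ENNReal.div_le_iff (by norm_num) (by norm_num), mul_comm]
    exact h3
  exact h4.trans (measure_mono (Ici_subset_Ici.mpr ht))

/-- **one-dimensional boundary layer** -/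
theorem layer {I : Set ℝ} (hI : I.OrdConnected) {M l : ℝ} (hM : 1 ≤ M) (hl : 0 ≤ l)
    (hlM : l * M ≤ 1) :
    gaussianReal 0 1 {v | v ∈ I ∧ v + l ∉ I}
      ≤ ENNReal.ofReal l * (ENNReal.ofReal (Real.exp 11 * M) * gaussianReal 0 1 Iᶜ
        + ENNReal.ofReal (Real.exp (-(M ^ 2) / 2))) := by
  have hM0 : 0 < M := by linarith
  rcases ({v | v ∈ I ∧ v + l ∉ I} : Set ℝ).eq_empty_or_nonempty with h | ⟨v0, hv0, hv0'⟩
  · rw [h]; simp
  set S : Set ℝ := {v | v ∈ I ∧ v + l ∉ I} with hS
  set t := v0 + l with ht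
  have hl1 : l ≤ 1 := by nlinarith
  have hlM' : l ≤ 1 / M := by rw [le_div_iff₀ hM0]; exact hlM
  -- the complement contains `[t, ∞)`
  have hIc : Ici t ⊆ Iᶜ := by
    intro w hw hwI
    exact hv0' (hI.out hv0 hwI ⟨by linarith, hw⟩)
  have hSI : S ⊆ Icc (t - 2 * l) t := by
    rintro v ⟨hv, hv'⟩
    constructor
    · by_contra hlt
      push Not at hlt
      exact hv' (hI.out hv hv0 ⟨by linarith, by linarith⟩)
    · by_contra hlt
      push Not at hlt
      exact hIc (show v ∈ Ici t from hlt.le) hv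
  -- bound by a bound of the density
  have gen : ∀ B : ℝ, 0 ≤ B → (∀ v ∈ Icc (t - 2 * l) t, gaussianPDFReal 0 1 v ≤ B) →
      gaussianReal 0 1 S ≤ ENNReal.ofReal l * ENNReal.ofReal B := by
    intro B hB hb
    rw [gaussianReal_apply 0 one_ne_zero]
    calc ∫⁻ x in S, gaussianPDF 0 1 x ≤ ∫⁻ _ in S, ENNReal.ofReal B := by
          apply lintegral_mono_ae
          have hmem : ∀ᵐ x ∂volume.restrict S, x ∈ Icc (t - 2 * l) t := by
            have h1 := ae_restrict_of_ae_restrict_of_subset hSI
              (ae_restrict_mem (μ := volume) (measurableSet_Icc (a := t - 2 * l) (b := t)))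
            exact h1
          filter_upwards [hmem] with x hx
          exact ENNReal.ofReal_le_ofReal (hb x hx)
      _ = ENNReal.ofReal B * volume S := by
          rw [lintegral_const, Measure.restrict_apply MeasurableSet.univ, univ_inter]
      _ ≤ ENNReal.ofReal B * ENNReal.ofReal l := by
          gcongr
          exact vol_exit_le hI hl
      _ = _ := mul_comm _ _
  rw [mul_add]
  rcases le_or_gt t (M + 2) with hcase | hcase
  · refine le_trans ?_ le_self_add
    -- comparison with the tail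
    have hcmp : ∀ v ∈ Icc (t - 2 * l) t, ENNReal.ofReal (gaussianPDFReal 0 1 v)
        ≤ ENNReal.ofReal (Real.exp 11 * M) * gaussianReal 0 1 Iᶜ := by
      intro v hv
      refine le_trans ?_ (mul_le_mul_right (measure_mono hIc) _)
      rcases le_or_gt t 0 with ht0 | ht0
      · refine le_trans ?_ (mul_le_mul_right (half_le_tail ht0) _)
        rw [← ENNReal.ofReal_mul (by positivity)]
        apply ENNReal.ofReal_le_ofReal
        rw [gpdf_form]
        have h1 : Real.exp (-(v ^ 2) / 2) ≤ 1 := by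
          rw [Real.exp_le_one_iff]
          have := sq_nonneg v
          linarith
        have h2 : (2:ℝ) ≤ Real.exp 11 := by
          have := Real.add_one_le_exp (11:ℝ)
          linarith
        calc (√(2 * Real.pi))⁻¹ * Real.exp (-(v ^ 2) / 2) ≤ 1 * 1 :=
              mul_le_mul inv_sqrt_le_one h1 (Real.exp_nonneg _) (by norm_num)
          _ ≤ Real.exp 11 * M * (1 / 2) := by nlinarith
      · refine le_trans ?_ (mul_le_mul_right (tail_lower ht0.le hM) _)
        rw [← ENNReal.ofReal_mul (by positivity)]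
        apply ENNReal.ofReal_le_ofReal
        rw [gpdf_form, gpdf_form]
        have h3 : Real.exp (-(v ^ 2) / 2) ≤ Real.exp 11 * Real.exp (-((t + 1 / M) ^ 2) / 2) := by
          rw [← Real.exp_add]
          apply Real.exp_le_exp.mpr
          have hiM : 1 / M ≤ 1 := by
            rw [div_le_one hM0]; exact hM
          have hiM0 : 0 < 1 / M := by positivity
          -- (t + 1/M)^2 - v^2 ≤ 22
          have h4 : (t + 1 / M) ^ 2 - v ^ 2 ≤ 22 := by
            have e : (t + 1 / M) ^ 2 - v ^ 2 = (t + 1 / M - v) * (t + 1 / M + v) := by ring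
            have h5 : 0 ≤ t + 1 / M - v := by linarith [hv.2]
            have h6 : t + 1 / M - v ≤ 3 * (1 / M) := by linarith [hv.1]
            have h7 : t + 1 / M + v ≤ 2 * M + 5 := by linarith [hv.2]
            rw [e]
            calc (t + 1 / M - v) * (t + 1 / M + v) ≤ (t + 1 / M - v) * (2 * M + 5) := by gcongr
              _ ≤ 3 * (1 / M) * (2 * M + 5) := by
                  apply mul_le_mul_of_nonneg_right h6
                  linarith
              _ = 6 + 15 * (1 / M) := by field_simp; ring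
              _ ≤ 22 := by linarith
          linarith
        calc (√(2 * Real.pi))⁻¹ * Real.exp (-(v ^ 2) / 2)
            ≤ (√(2 * Real.pi))⁻¹ * (Real.exp 11 * Real.exp (-((t + 1 / M) ^ 2) / 2)) := by gcongr
          _ = Real.exp 11 * M * ((√(2 * Real.pi))⁻¹ * Real.exp (-(t + 1 / M) ^ 2 / 2) / M) := by
              field_simp
    by_cases hfin : ENNReal.ofReal (Real.exp 11 * M) * gaussianReal 0 1 Iᶜ = ∞
    · exfalso
      exact (ENNReal.mul_ne_top ENNReal.ofReal_ne_top (measure_ne_top _ _)) hfin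
    · have := gen (ENNReal.ofReal (Real.exp 11 * M) * gaussianReal 0 1 Iᶜ).toReal
        ENNReal.toReal_nonneg (fun v hv => (ENNReal.ofReal_le_iff_le_toReal hfin).mp (hcmp v hv))
      rwa [ENNReal.ofReal_toReal hfin] at this
  · refine le_trans ?_ le_add_self
    apply gen _ (Real.exp_nonneg _)
    intro v hv
    rw [gpdf_form]
    have h1 : M ≤ v := by linarith [hv.1]
    have h2 : Real.exp (-(v ^ 2) / 2) ≤ Real.exp (-(M ^ 2) / 2) := by
      apply Real.exp_le_exp.mpr
      nlinarith
    calc (√(2 * Real.pi))⁻¹ * Real.exp (-(v ^ 2) / 2) ≤ 1 * Real.exp (-(M ^ 2) / 2) :=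
          mul_le_mul inv_sqrt_le_one h2 (Real.exp_nonneg _) (by norm_num)
      _ = _ := one_mul _

variable {E : Type*} [NormedAddCommGroup E] [InnerProductSpace ℝ E] [FiniteDimensional ℝ E]
  [MeasurableSpace E] [BorelSpace E]

/-- the exit indicator -/
noncomputable def exitI (L : Set E) (lam : E → ℝ) (e : E) : E → ℝ≥0∞ :=
  {x | x ∈ L ∧ x + lam x • e ∉ L}.indicator 1

lemma measurableSet_exit {L : Set E} (hL : MeasurableSet L) {lam : E → ℝ} (hlam : Measurable lam)
    (e : E) : MeasurableSet {x | x ∈ L ∧ x + lam x • e ∉ L} := by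
  have : Measurable fun x => x + lam x • e := by fun_prop
  exact hL.inter (this hL).compl

lemma measurable_exitI {L : Set E} (hL : MeasurableSet L) {lam : E → ℝ} (hlam : Measurable lam)
    (e : E) : Measurable (exitI L lam e) :=
  measurable_one.indicator (measurableSet_exit hL hlam e)

omit [FiniteDimensional ℝ E] [MeasurableSpace E] [BorelSpace E] in
/-- larger displacements exit more -/
lemma exit_mono {L : Set E} (hL : Convex ℝ L) {l l' : ℝ} (h0 : 0 ≤ l) (h : l ≤ l') {x e : E}
    (hx : x ∈ L) (hx' : x + l • e ∉ L) : x + l' • e ∉ L := by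
  intro h2
  apply hx'
  rcases h.eq_or_lt with rfl | hlt
  · exact h2
  have hl' : 0 < l' := lt_of_le_of_lt h0 hlt
  have := hL hx h2 (a := 1 - l / l') (b := l / l') (by
    rw [sub_nonneg, div_le_one hl']; exact h) (by positivity) (by ring)
  have e1 : (1 - l / l') • x + (l / l') • (x + l' • e) = x + l • e := by
    rw [smul_add, smul_smul, div_mul_cancel₀ _ hl'.ne', sub_smul, one_smul]
    abel
  rwa [e1] at this

lemma line_conn {L : Set E} (hL : Convex ℝ L) (e x : E) : {u | lin e x u ∈ L}.OrdConnected := by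
  rw [← convex_iff_ordConnected]
  intro u hu v hv a b ha hb hab
  show lin e x (a • u + b • v) ∈ L
  have : lin e x (a • u + b • v) = a • lin e x u + b • lin e x v := by
    unfold lin
    have h1 : x - ⟪x, e⟫ • e = a • (x - ⟪x, e⟫ • e) + b • (x - ⟪x, e⟫ • e) := by
      rw [← add_smul, hab, one_smul]
    conv_lhs => rw [h1]
    simp only [smul_eq_mul, add_smul, mul_smul, smul_add]
    abel
  rw [this]
  exact hL hu hv ha hb hab

/-- **fibre move** -/
theorem fibre_move {W : Submodule ℝ E} {e : E} (he : ‖e‖ = 1) (heW : e ∈ Wᗮ) {L : Set E}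
    (hL : Convex ℝ L) (hLm : MeasurableSet L) {M l : ℝ} (hM : 1 ≤ M) (hl : 0 ≤ l)
    (hlM : l * M ≤ 1) (y : E) :
    fib W (exitI L (fun _ => l) e) y
      ≤ ENNReal.ofReal l * (ENNReal.ofReal (Real.exp 11 * M) * fib W (Lᶜ.indicator 1) y
        + ENNReal.ofReal (Real.exp (-(M ^ 2) / 2))) := by
  have hWe := le_perp heW
  have m1 : Measurable (exitI L (fun _ => l) e) := measurable_exitI hLm measurable_const e
  have m2 : Measurable (Lᶜ.indicator (1 : E → ℝ≥0∞)) := measurable_one.indicator hLm.compl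
  have key : ∀ x, fib (perp e) (exitI L (fun _ => l) e) x
      ≤ ENNReal.ofReal l * (ENNReal.ofReal (Real.exp 11 * M) * fib (perp e) (Lᶜ.indicator 1) x
        + ENNReal.ofReal (Real.exp (-(M ^ 2) / 2))) := by
    intro x
    rw [fib_line he m1, fib_line he m2]
    have hI := line_conn hL e x
    have hIm : MeasurableSet {u | lin e x u ∈ L} := measurable_lin_right e x hLm
    have h := layer hI hM hl hlM
    have e1 : ∫⁻ u, exitI L (fun _ => l) e (lin e x u) ∂gaussianReal 0 1
        = gaussianReal 0 1 {v | v ∈ {u | lin e x u ∈ L} ∧ v + l ∉ {u | lin e x u ∈ L}} := by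
      rw [← lintegral_indicator_one]
      · apply lintegral_congr
        intro u
        unfold exitI
        have hiff : lin e x u ∈ {x | x ∈ L ∧ x + l • e ∉ L}
            ↔ u ∈ {v | v ∈ {u | lin e x u ∈ L} ∧ v + l ∉ {u | lin e x u ∈ L}} := by
          simp only [mem_setOf_eq, lin_add]
        by_cases hu : u ∈ {v | v ∈ {u | lin e x u ∈ L} ∧ v + l ∉ {u | lin e x u ∈ L}}
        · rw [indicator_of_mem (hiff.mpr hu), indicator_of_mem hu]; rfl
        · rw [indicator_of_notMem (fun h => hu (hiff.mp h)), indicator_of_notMem hu]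
      · refine hIm.inter ?_
        have : Measurable fun v : ℝ => v + l := by fun_prop
        exact (this hIm).compl
    have e2 : ∫⁻ u, (Lᶜ.indicator (1 : E → ℝ≥0∞)) (lin e x u) ∂gaussianReal 0 1
        = gaussianReal 0 1 {u | lin e x u ∈ L}ᶜ := by
      rw [← lintegral_indicator_one hIm.compl]
      apply lintegral_congr
      intro u
      by_cases hu : lin e x u ∈ L
      · rw [indicator_of_notMem (by simpa using hu), indicator_of_notMem (by simpa using hu)]
      · rw [indicator_of_mem (by simpa using hu), indicator_of_mem (by simpa using hu)]; rfl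
    rw [e1, e2]
    exact h
  have h1 := fib_mono (W := W) key y
  rw [fib_tower hWe m1] at h1
  refine h1.trans_eq ?_
  have m3 : Measurable (fib (perp e) (Lᶜ.indicator (1 : E → ℝ≥0∞))) := measurable_fib m2
  have e3 : fib W (fun x => ENNReal.ofReal l * (ENNReal.ofReal (Real.exp 11 * M)
      * fib (perp e) (Lᶜ.indicator 1) x + ENNReal.ofReal (Real.exp (-(M ^ 2) / 2)))) y
      = ENNReal.ofReal l * (ENNReal.ofReal (Real.exp 11 * M)
        * fib W (fib (perp e) (Lᶜ.indicator 1)) y + ENNReal.ofReal (Real.exp (-(M ^ 2) / 2))) := by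
    rw [fib_mul (inv_const W _) ((m3.const_mul _).add_const _),
      fib_add (m3.const_mul _), fib_mul (inv_const W _) m3, fib_const]
  rw [e3, fib_tower hWe m2]

end Vale.Agent.P262.H698
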