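import Mathlib

/-!
# P262, block ROT, part 1: the line lemma

`C ⊆ ℝ × Ω` has interval sections in the first variable, `P {z | (u, z) ∉ C} ≤ A u` on the zone `S`,
`A` is even and nondecreasing in `|u|`. The Gaussian measure of the exits by a displacement
`lam z`, capped by `A u`, is bounded by `∫ r φ(r) H(A r) dr`.
-/

set_option linter.all false

open MeasureTheory ProbabilityTheory Set Filter Topology
open scoped ENNReal

namespace Vale.Agent.P262.H698

variable {Ω : Type*} [MeasurableSpace Ω] (P : Measure Ω)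

/-- the largest value of `E[lam; S]` for `P S = α` -/
noncomputable def HH (lam : Ω → ℝ) (α : ℝ≥0∞) : ℝ≥0∞ :=
  ∫⁻ l in Ioi (0:ℝ), min α (P {z | l < lam z})

lemma HH_mono (lam : Ω → ℝ) {α β : ℝ≥0∞} (h : α ≤ β) : HH P lam α ≤ HH P lam β :=
  lintegral_mono fun _ => min_le_min_right _ h

/-- bathtub -/
lemma setLIntegral_le_HH {lam : Ω → ℝ} (hlam : Measurable lam) (h0 : ∀ z, 0 ≤ lam z) (S : Set Ω) :
    ∫⁻ z in S, ENNReal.ofReal (lam z) ∂P ≤ HH P lam (P S) := by
  rw [lintegral_eq_lintegral_meas_lt (P.restrict S) (ae_of_all _ h0) hlam.aemeasurable]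
  apply lintegral_mono
  intro l
  simp only
  rw [Measure.restrict_apply (measurableSet_lt measurable_const hlam)]
  exact le_min (measure_mono inter_subset_right) (measure_mono inter_subset_left)

lemma vol_exit_le {I : Set ℝ} (hI : I.OrdConnected) {l : ℝ} (hl : 0 ≤ l) :
    volume {u | u ∈ I ∧ u + l ∉ I} ≤ ENNReal.ofReal l := by
  have h : ∀ u ∈ {u | u ∈ I ∧ u + l ∉ I}, ∀ v ∈ {u | u ∈ I ∧ u + l ∉ I}, v - u ≤ l := by
    rintro u ⟨hu, hu'⟩ v ⟨hv, hv'⟩
    by_contra hlt
    push Not at hlt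
    exact hu' (hI.out hu hv ⟨by linarith, by linarith⟩)
  refine (Real.volume_le_diam _).trans (Metric.ediam_le ?_)
  intro u hu v hv
  rw [edist_dist, Real.dist_eq]
  apply ENNReal.ofReal_le_ofReal
  rw [abs_sub_le_iff]
  exact ⟨h v hv u hu, h u hu v hv⟩

section fixed

variable {P} [SFinite P] {C : Set (ℝ × Ω)} {lam : Ω → ℝ}

lemma meas_exit (hC : MeasurableSet C) (hlam : Measurable lam) :
    MeasurableSet {p : ℝ × Ω | p ∈ C ∧ (p.1 + lam p.2, p.2) ∉ C} := by
  have h1 : Measurable fun p : ℝ × Ω => (p.1 + lam p.2, p.2) :=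
    (measurable_fst.add (hlam.comp measurable_snd)).prodMk measurable_snd
  exact hC.inter (h1 hC).compl

lemma measurable_exit (hC : MeasurableSet C) (hlam : Measurable lam) :
    Measurable fun u : ℝ => P {z | (u, z) ∈ C ∧ (u + lam z, z) ∉ C} :=
  measurable_measure_prodMk_left (meas_exit hC hlam)

/-- fixed end point `τ` of the zone -/
lemma line_fixed (hC : MeasurableSet C)
    (hconv : ∀ z, {u | (u, z) ∈ C}.OrdConnected) (hlam : Measurable lam) (h0 : ∀ z, 0 ≤ lam z)
    {A : ℝ → ℝ≥0∞} {S : Set ℝ} (hS : MeasurableSet S) {τ : ℝ} {α : ℝ≥0∞}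
    (hτ : P {z | (τ, z) ∉ C} ≤ α) (hSτ : ∀ u ∈ S, u ≤ τ) (hA : ∀ u ∈ S, A u ≤ α) :
    ∫⁻ u in S, min (A u) (P {z | (u, z) ∈ C ∧ (u + lam z, z) ∉ C}) ≤ 2 * HH P lam α := by
  have hsec : MeasurableSet {z | (τ, z) ∉ C} := (measurable_prodMk_left hC).compl
  set E1 : Set (ℝ × Ω) := {p | (p ∈ C ∧ (p.1 + lam p.2, p.2) ∉ C) ∧ (τ, p.2) ∉ C} with hE1
  have hE1m : MeasurableSet E1 := (meas_exit hC hlam).inter (measurable_snd hsec)
  have hm2 : Measurable fun u : ℝ => P {z | τ - u < lam z} := by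
    have : MeasurableSet {p : ℝ × Ω | τ - p.1 < lam p.2} :=
      measurableSet_lt (measurable_const.sub measurable_fst) (hlam.comp measurable_snd)
    exact measurable_measure_prodMk_left this
  have step1 : ∀ u ∈ S, min (A u) (P {z | (u, z) ∈ C ∧ (u + lam z, z) ∉ C})
      ≤ P (Prod.mk u ⁻¹' E1) + min α (P {z | τ - u < lam z}) := by
    intro u hu
    have hsub : {z | (u, z) ∈ C ∧ (u + lam z, z) ∉ C}
        ⊆ (Prod.mk u ⁻¹' E1) ∪ {z | τ - u < lam z} := by
      rintro z ⟨h1, h2⟩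
      by_cases h3 : (τ, z) ∈ C
      · right
        show τ - u < lam z
        by_contra hle
        push Not at hle
        exact h2 ((hconv z).out h1 h3 ⟨by have := h0 z; linarith, by linarith⟩)
      · left
        exact ⟨⟨h1, h2⟩, h3⟩
    calc min (A u) (P {z | (u, z) ∈ C ∧ (u + lam z, z) ∉ C})
        ≤ min α (P (Prod.mk u ⁻¹' E1) + P {z | τ - u < lam z}) :=
          min_le_min (hA u hu) ((measure_mono hsub).trans (measure_union_le _ _))
      _ ≤ P (Prod.mk u ⁻¹' E1) + min α (P {z | τ - u < lam z}) := by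
          rcases le_total α (P {z | τ - u < lam z}) with h | h
          · rw [min_eq_left h]
            exact (min_le_left _ _).trans le_add_self
          · rw [min_eq_right h]
            exact min_le_right _ _
  have part1 : ∫⁻ u in S, P (Prod.mk u ⁻¹' E1) ≤ HH P lam α := by
    calc ∫⁻ u in S, P (Prod.mk u ⁻¹' E1) ≤ ∫⁻ u, P (Prod.mk u ⁻¹' E1) :=
          setLIntegral_le_lintegral _ _
      _ = (volume.prod P) E1 := (Measure.prod_apply hE1m).symm
      _ = ∫⁻ z, volume ((fun u => (u, z)) ⁻¹' E1) ∂P := Measure.prod_apply_symm hE1m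
      _ ≤ ∫⁻ z, ({z | (τ, z) ∉ C}).indicator (fun z => ENNReal.ofReal (lam z)) z ∂P := by
          apply lintegral_mono
          intro z
          by_cases h3 : (τ, z) ∈ C
          · have : (fun u : ℝ => (u, z)) ⁻¹' E1 = ∅ := by
              ext u
              simp [hE1, h3]
            simp only [this, measure_empty]
            exact bot_le
          · rw [indicator_of_mem (show z ∈ {z | (τ, z) ∉ C} from h3)]
            refine (measure_mono ?_).trans (vol_exit_le (hconv z) (h0 z))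
            rintro u ⟨⟨h1, h2⟩, -⟩
            exact ⟨h1, h2⟩
      _ = ∫⁻ z in {z | (τ, z) ∉ C}, ENNReal.ofReal (lam z) ∂P := lintegral_indicator hsec _
      _ ≤ HH P lam (P {z | (τ, z) ∉ C}) := setLIntegral_le_HH P hlam h0 _
      _ ≤ HH P lam α := HH_mono P lam hτ
  have part2 : ∫⁻ u in S, min α (P {z | τ - u < lam z}) ≤ HH P lam α := by
    have e : HH P lam α
        = ∫⁻ u, (Ioi (0:ℝ)).indicator (fun l => min α (P {z | l < lam z})) (τ - u) := by
      unfold HH
      rw [← lintegral_indicator measurableSet_Ioi]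
      exact (lintegral_sub_left_eq_self
        ((Ioi (0:ℝ)).indicator (fun l => min α (P {z | l < lam z}))) τ).symm
    rw [e, ← lintegral_indicator hS]
    apply lintegral_mono_ae
    have hne : ∀ᵐ u : ℝ, u ≠ τ := by
      rw [ae_iff]
      simp
    filter_upwards [hne] with u hu
    by_cases hS' : u ∈ S
    · rw [indicator_of_mem hS']
      have : 0 < τ - u := by
        have := hSτ u hS'
        rcases this.lt_or_eq with h | h
        · linarith
        · exact absurd h hu
      rw [indicator_of_mem (show τ - u ∈ Ioi (0:ℝ) from this)]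
    · rw [indicator_of_notMem hS']
      exact bot_le
  calc ∫⁻ u in S, min (A u) (P {z | (u, z) ∈ C ∧ (u + lam z, z) ∉ C})
      ≤ ∫⁻ u in S, (P (Prod.mk u ⁻¹' E1) + min α (P {z | τ - u < lam z})) :=
        setLIntegral_mono' hS step1
    _ = (∫⁻ u in S, P (Prod.mk u ⁻¹' E1)) + ∫⁻ u in S, min α (P {z | τ - u < lam z}) :=
        lintegral_add_left (measurable_measure_prodMk_left hE1m) _
    _ ≤ HH P lam α + HH P lam α := add_le_add part1 part2
    _ = 2 * HH P lam α := (two_mul _).symm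

/-- a zone `S` on which `A ≤ α` -/
lemma line_zone (hC : MeasurableSet C)
    (hconv : ∀ z, {u | (u, z) ∈ C}.OrdConnected) (hlam : Measurable lam) (h0 : ∀ z, 0 ≤ lam z)
    {A : ℝ → ℝ≥0∞} {S : Set ℝ} (hS : MeasurableSet S) {α : ℝ≥0∞} (hb : BddAbove S)
    (hD : ∀ u ∈ S, P {z | (u, z) ∉ C} ≤ α) (hA : ∀ u ∈ S, A u ≤ α) :
    ∫⁻ u in S, min (A u) (P {z | (u, z) ∈ C ∧ (u + lam z, z) ∉ C}) ≤ 2 * HH P lam α := by
  rcases S.eq_empty_or_nonempty with rfl | hne
  · simp
  have hlub := isLUB_csSup hne hb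
  obtain ⟨τ, hτm, hτle, hτt, hτS⟩ := hlub.exists_seq_monotone_tendsto hne
  set s := sSup S
  set F : ℝ → ℝ≥0∞ := fun u => min (A u) (P {z | (u, z) ∈ C ∧ (u + lam z, z) ∉ C}) with hF
  have h1 : ∀ n, ∫⁻ u in S ∩ Iic (τ n), F u ≤ 2 * HH P lam α := fun n =>
    line_fixed hC hconv hlam h0 (hS.inter measurableSet_Iic) (hD _ (hτS n))
      (fun u hu => hu.2) (fun u hu => hA u hu.1)
  have hmono : Monotone fun n => S ∩ Iic (τ n) := fun m n h =>
    inter_subset_inter_right _ (Iic_subset_Iic.mpr (hτm h))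
  have h2 : S ≤ᵐ[volume] (⋃ n, S ∩ Iic (τ n) : Set ℝ) := by
    have hne : ∀ᵐ u : ℝ, u ≠ s := by
      rw [ae_iff]
      simp
    filter_upwards [hne] with u hu hS'
    have h3 : u < s := lt_of_le_of_ne (hlub.1 hS') hu
    obtain ⟨n, hn⟩ := (hτt.eventually (lt_mem_nhds h3)).exists
    exact mem_iUnion.mpr ⟨n, hS', hn.le⟩
  calc ∫⁻ u in S, F u ≤ ∫⁻ u in (⋃ n, S ∩ Iic (τ n)), F u := lintegral_mono_set' h2
    _ = ⨆ n, ∫⁻ u in S ∩ Iic (τ n), F u := by
        rw [setLIntegral_iUnion_of_directed]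
        exact hmono.directed_le
    _ ≤ 2 * HH P lam α := iSup_le h1

end fixed

/-- `1` if `S` has positive measure inside `(-r, r)` -/
noncomputable def nz (S : Set ℝ) (r : ℝ) : ℝ≥0∞ := if volume (S ∩ Ioo (-r) r) = 0 then 0 else 1

lemma nz_mono {S T : Set ℝ} (h : S ⊆ T) (r : ℝ) : nz S r ≤ nz T r := by
  unfold nz
  split_ifs with h1 h2
  · exact le_rfl
  · exact bot_le
  · exact absurd (measure_mono_null (inter_subset_inter_left _ h) ‹_›) h1
  · exact le_rfl

lemma nz_le_one (S : Set ℝ) (r : ℝ) : nz S r ≤ 1 := by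
  unfold nz
  split_ifs <;> simp

/-- the Gaussian density is the tail integral of `r φ(r)` -/
lemma gpdf_eq (u : ℝ) : gaussianPDF 0 1 u
    = ∫⁻ r in Ioi |u|, ENNReal.ofReal r * gaussianPDF 0 1 r := by
  have hform : ∀ r : ℝ, gaussianPDFReal 0 1 r = (√(2 * Real.pi))⁻¹ * Real.exp (-(r ^ 2) / 2) := by
    intro r
    simp [gaussianPDFReal]
  have hder : ∀ x ∈ Ici |u|, HasDerivAt (fun r => -gaussianPDFReal 0 1 r)
      (x * gaussianPDFReal 0 1 x) x := by
    intro x _
    have h1 : HasDerivAt (fun r : ℝ => -(r ^ 2) / 2) (-x) x := by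
      have h0 : HasDerivAt (fun r : ℝ => r ^ 2) (2 * x) x := by
        simpa using hasDerivAt_pow 2 x
      have h00 := h0.const_mul (-(1/2 : ℝ))
      have e1 : (fun r : ℝ => -(r ^ 2) / 2) = fun y => -(1/2 : ℝ) * y ^ 2 := by
        funext y; ring
      have e2 : -x = -(1/2 : ℝ) * (2 * x) := by ring
      rw [e1, e2]
      exact h00
    have h2 := (h1.exp.const_mul (√(2 * Real.pi))⁻¹).neg
    have h3 : (fun r => -gaussianPDFReal 0 1 r)
        = -fun y => ((√(2 * Real.pi))⁻¹ * Real.exp (-(y ^ 2) / 2)) := by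
      funext y
      rw [hform]
      rfl
    have e3 : x * gaussianPDFReal 0 1 x
        = -((√(2 * Real.pi))⁻¹ * (Real.exp (-(x ^ 2) / 2) * -x)) := by
      rw [hform]; ring
    rw [h3, e3]
    exact h2
  have hlim : Tendsto (fun r => -gaussianPDFReal 0 1 r) atTop (𝓝 (-0)) := by
    apply Tendsto.neg
    have h3 : (fun r => gaussianPDFReal 0 1 r)
        = fun y => (√(2 * Real.pi))⁻¹ * Real.exp (-(y ^ 2) / 2) := by
      funext y
      rw [hform]
    rw [show (gaussianPDFReal 0 1) = fun r => gaussianPDFReal 0 1 r from rfl, h3,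
      ← mul_zero ((√(2 * Real.pi))⁻¹)]
    apply Tendsto.const_mul
    apply Real.tendsto_exp_atBot.comp
    have : Tendsto (fun y : ℝ => y ^ 2 / 2) atTop atTop :=
      (tendsto_pow_atTop two_ne_zero).atTop_div_const (by norm_num)
    have h4 := tendsto_neg_atTop_atBot.comp this
    refine h4.congr fun y => ?_
    simp only [Function.comp]
    ring
  have hnn : ∀ x ∈ Ioi |u|, 0 ≤ x * gaussianPDFReal 0 1 x := fun x hx =>
    mul_nonneg ((abs_nonneg u).trans hx.le) (gaussianPDFReal_nonneg _ _ _)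
  have hint : IntegrableOn (fun x => x * gaussianPDFReal 0 1 x) (Ioi |u|) :=
    integrableOn_Ioi_deriv_of_nonneg' hder hnn hlim
  have h4 := integral_Ioi_of_hasDerivAt_of_nonneg' hder hnn hlim
  rw [neg_zero, zero_sub, neg_neg] at h4
  have h5 : gaussianPDFReal 0 1 |u| = gaussianPDFReal 0 1 u := by
    rw [hform, hform, sq_abs]
  rw [h5] at h4
  rw [gaussianPDF, ← h4, ofReal_integral_eq_lintegral_ofReal hint
    ((ae_restrict_iff' measurableSet_Ioi).mpr (ae_of_all _ hnn))]
  apply setLIntegral_congr_fun measurableSet_Ioi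
  intro r hr
  simp only [gaussianPDF]
  rw [ENNReal.ofReal_mul ((abs_nonneg u).trans hr.le)]

/-- **line lemma** -/
theorem line_main {P : Measure Ω} [SFinite P] {C : Set (ℝ × Ω)} {lam : Ω → ℝ}
    (hC : MeasurableSet C)
    (hconv : ∀ z, {u | (u, z) ∈ C}.OrdConnected) (hlam : Measurable lam) (h0 : ∀ z, 0 ≤ lam z)
    {A : ℝ → ℝ≥0∞} (hAm : Measurable A) (hA : ∀ u r, |u| ≤ r → A u ≤ A r)
    {S : Set ℝ} (hS : MeasurableSet S)
    (hD : ∀ u ∈ S, P {z | (u, z) ∉ C} ≤ A u) :
    ∫⁻ u in S, min (A u) (P {z | (u, z) ∈ C ∧ (u + lam z, z) ∉ C}) ∂gaussianReal 0 1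
      ≤ 4 * ∫⁻ r in Ioi (0:ℝ), ENNReal.ofReal r * gaussianPDF 0 1 r * HH P lam (A r) * nz S r := by
  set F : ℝ → ℝ≥0∞ := fun u => min (A u) (P {z | (u, z) ∈ C ∧ (u + lam z, z) ∉ C}) with hF
  have hFm : Measurable F := hAm.min (measurable_exit hC hlam)
  -- the bound for one radius
  have one : ∀ r : ℝ, ∫⁻ u in S ∩ Ioo (-r) r, F u ≤ 4 * HH P lam (A r) * nz S r := by
    intro r
    unfold nz
    split_ifs with h
    · rw [setLIntegral_measure_zero _ _ h]
      exact bot_le
    · rw [mul_one]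
      refine (line_zone hC hconv hlam h0 (hS.inter measurableSet_Ioo)
        ⟨r, fun u hu => hu.2.2.le⟩ (α := A r) ?_ ?_).trans ?_
      · intro u hu
        exact (hD u hu.1).trans (hA u r (abs_le.mpr ⟨hu.2.1.le, hu.2.2.le⟩))
      · intro u hu
        exact hA u r (abs_le.mpr ⟨hu.2.1.le, hu.2.2.le⟩)
      · gcongr
        norm_num
  have e1 : ∫⁻ u in S, F u ∂gaussianReal 0 1 = ∫⁻ u in S, gaussianPDF 0 1 u * F u := by
    rw [gaussianReal_of_var_ne_zero 0 one_ne_zero, restrict_withDensity hS,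
      lintegral_withDensity_eq_lintegral_mul _ (measurable_gaussianPDF 0 1) hFm]
    rfl
  rw [e1]
  -- the triangle
  have hset : MeasurableSet {p : ℝ × ℝ | p.1 ∈ S ∧ |p.1| < p.2} :=
    (measurable_fst hS).inter (measurableSet_lt measurable_fst.abs measurable_snd)
  set W : ℝ → ℝ → ℝ≥0∞ := fun u r => ({p : ℝ × ℝ | p.1 ∈ S ∧ |p.1| < p.2}).indicator
    (fun p => ENNReal.ofReal p.2 * gaussianPDF 0 1 p.2 * F p.1) (u, r) with hW
  have hWm : Measurable (Function.uncurry W) := by
    have : Function.uncurry W = ({p : ℝ × ℝ | p.1 ∈ S ∧ |p.1| < p.2}).indicator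
        (fun p => ENNReal.ofReal p.2 * gaussianPDF 0 1 p.2 * F p.1) := by
      funext p
      rfl
    rw [this]
    refine Measurable.indicator ?_ hset
    exact ((ENNReal.measurable_ofReal.comp measurable_snd).mul
      ((measurable_gaussianPDF 0 1).comp measurable_snd)).mul (hFm.comp measurable_fst)
  have e2 : ∫⁻ u in S, gaussianPDF 0 1 u * F u = ∫⁻ u, ∫⁻ r, W u r := by
    rw [← lintegral_indicator hS]
    apply lintegral_congr
    intro u
    by_cases hu : u ∈ S
    · rw [indicator_of_mem hu, gpdf_eq, ← lintegral_mul_const _ (by fun_prop),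
        ← lintegral_indicator measurableSet_Ioi]
      apply lintegral_congr
      intro r
      by_cases hr : |u| < r
      · rw [indicator_of_mem (show r ∈ Ioi |u| from hr)]
        simp only [hW]
        rw [indicator_of_mem (show (u, r) ∈ {p : ℝ × ℝ | p.1 ∈ S ∧ |p.1| < p.2} from ⟨hu, hr⟩)]
      · rw [indicator_of_notMem (show r ∉ Ioi |u| from hr)]
        simp only [hW]
        rw [indicator_of_notMem (show (u, r) ∉ {p : ℝ × ℝ | p.1 ∈ S ∧ |p.1| < p.2} from
          fun h => hr h.2)]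
    · rw [indicator_of_notMem hu]
      symm
      have : ∀ r, W u r = 0 := fun r => by
        simp only [hW]
        exact indicator_of_notMem (fun h => hu h.1) _
      simp [this]
  rw [e2, lintegral_lintegral_swap hWm.aemeasurable]
  rw [← lintegral_const_mul' _ _ (by norm_num), ← lintegral_indicator measurableSet_Ioi]
  apply lintegral_mono
  intro r
  by_cases hr : 0 < r
  · rw [indicator_of_mem (show r ∈ Ioi (0:ℝ) from hr)]
    show (∫⁻ u, W u r) ≤ _
    have e3 : ∫⁻ u, W u r = ∫⁻ u in S ∩ Ioo (-r) r,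
        ENNReal.ofReal r * gaussianPDF 0 1 r * F u := by
      rw [← lintegral_indicator (hS.inter measurableSet_Ioo)]
      apply lintegral_congr
      intro u
      simp only [hW]
      by_cases hu : u ∈ S ∩ Ioo (-r) r
      · rw [indicator_of_mem hu, indicator_of_mem
          (show (u, r) ∈ {p : ℝ × ℝ | p.1 ∈ S ∧ |p.1| < p.2} from
            ⟨hu.1, abs_lt.mpr ⟨hu.2.1, hu.2.2⟩⟩)]
      · rw [indicator_of_notMem hu, indicator_of_notMem]
        intro h
        exact hu ⟨h.1, (abs_lt.mp h.2).1, (abs_lt.mp h.2).2⟩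
    rw [e3, lintegral_const_mul _ hFm]
    calc ENNReal.ofReal r * gaussianPDF 0 1 r * ∫⁻ u in S ∩ Ioo (-r) r, F u
        ≤ ENNReal.ofReal r * gaussianPDF 0 1 r * (4 * HH P lam (A r) * nz S r) := by
          gcongr
          exact one r
      _ = 4 * (ENNReal.ofReal r * gaussianPDF 0 1 r * HH P lam (A r) * nz S r) := by ring
  · rw [indicator_of_notMem (show r ∉ Ioi (0:ℝ) from hr)]
    have : ∀ u, W u r = 0 := fun u => by
      simp only [hW]
      refine indicator_of_notMem (fun h => hr ?_) _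
      exact (abs_nonneg u).trans_lt h.2
    simp [this]

end Vale.Agent.P262.H698
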