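import Vale.Agent.P262.H395.Fib
import Vale.Agent.P262.H698.Line

/-!
# P262, block ROT, part 3: lines in a Gaussian space
-/

set_option linter.all false

open MeasureTheory ProbabilityTheory Set
open scoped ENNReal RealInnerProductSpace

namespace Vale.Agent.P262.H698

open Vale.Agent.P262.H395

variable {E : Type*} [NormedAddCommGroup E] [InnerProductSpace ℝ E] [FiniteDimensional ℝ E]
  [MeasurableSpace E] [BorelSpace E]

lemma map_inner {e : E} (he : ‖e‖ = 1) :
    (stdGaussian E).map (fun x => ⟪x, e⟫) = gaussianReal 0 1 := by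
  have hm : Measurable fun x : E => ⟪x, e⟫ := by fun_prop
  haveI : IsProbabilityMeasure ((stdGaussian E).map (fun x => ⟪x, e⟫)) :=
    Measure.isProbabilityMeasure_map hm.aemeasurable
  apply Measure.ext_of_charFun
  funext t
  rw [charFun_apply, integral_map hm.aemeasurable (by fun_prop), charFun_gaussianReal]
  have e1 : ∀ x : E, Complex.exp (⟪⟪x, e⟫, t⟫ * Complex.I)
      = Complex.exp (⟪x, t • e⟫ * Complex.I) := by
    intro x
    congr 3
    rw [inner_smul_right]
    simp
  simp_rw [e1]
  rw [← charFun_apply, charFun_stdGaussian, norm_smul, he]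
  congr 1
  have : ((‖t‖ * 1 : ℝ) : ℂ) ^ 2 = (t : ℂ) ^ 2 := by
    rw [mul_one]
    have : ‖t‖ ^ 2 = t ^ 2 := by rw [Real.norm_eq_abs, sq_abs]
    exact_mod_cast this
  rw [this]
  push_cast
  ring

/-- the point of the line through `x` in direction `e` with coordinate `u` -/
def lin (e x : E) (u : ℝ) : E := x - ⟪x, e⟫ • e + u • e

omit [FiniteDimensional ℝ E] [MeasurableSpace E] [BorelSpace E] in
lemma inner_lin {e : E} (he : ‖e‖ = 1) (x : E) (u : ℝ) : ⟪lin e x u, e⟫ = u := by
  unfold lin
  rw [inner_add_left, inner_sub_left, inner_smul_left, inner_smul_left,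
    real_inner_self_eq_norm_sq, he]
  simp

omit [FiniteDimensional ℝ E] [MeasurableSpace E] [BorelSpace E] in
lemma lin_lin {e : E} (he : ‖e‖ = 1) (x : E) (u v : ℝ) : lin e (lin e x u) v = lin e x v := by
  have h := inner_lin he x u
  show lin e x u - ⟪lin e x u, e⟫ • e + v • e = lin e x v
  rw [h]
  unfold lin
  abel

omit [FiniteDimensional ℝ E] [MeasurableSpace E] [BorelSpace E] in
lemma lin_self (e x : E) : lin e x ⟪x, e⟫ = x := by
  unfold lin
  abel

omit [FiniteDimensional ℝ E] [MeasurableSpace E] [BorelSpace E] in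
lemma lin_add (e x : E) (u v : ℝ) : lin e x (u + v) = lin e x u + v • e := by
  unfold lin
  rw [add_smul]
  abel

lemma continuous_lin (e : E) : Continuous fun p : E × ℝ => lin e p.1 p.2 := by
  unfold lin
  fun_prop

lemma measurable_lin (e : E) : Measurable fun p : E × ℝ => lin e p.1 p.2 :=
  (continuous_lin e).measurable

lemma measurable_lin_right (e x : E) : Measurable (lin e x) :=
  (measurable_lin e).comp (measurable_const.prodMk measurable_id)

/-- the hyperplane orthogonal to `e` -/
noncomputable abbrev perp (e : E) : Submodule ℝ E := (Submodule.span ℝ {e})ᗮ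

lemma mix_perp {e : E} (he : ‖e‖ = 1) (x z : E) : mix (perp e) x z = lin e x ⟪z, e⟫ := by
  unfold mix lin
  have h : ∀ y : E, (perp e).starProjection y = y - ⟪y, e⟫ • e := by
    intro y
    rw [Submodule.starProjection_orthogonal_val]
    rw [Submodule.starProjection_unit_singleton ℝ he]
    rw [real_inner_comm]
  rw [h, h]
  abel

lemma fib_line {e : E} (he : ‖e‖ = 1) {F : E → ℝ≥0∞} (hF : Measurable F) (x : E) :
    fib (perp e) F x = ∫⁻ u, F (lin e x u) ∂gaussianReal 0 1 := by
  unfold fib
  simp_rw [mix_perp he]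
  rw [← map_inner he, lintegral_map (f := fun u => F (lin e x u))
    (hF.comp (measurable_lin_right e x)) (by fun_prop)]

lemma le_perp {W : Submodule ℝ E} {e : E} (h : e ∈ Wᗮ) : W ≤ perp e := by
  intro w hw
  rw [Submodule.mem_orthogonal_singleton_iff_inner_right]
  rw [real_inner_comm]
  exact (Submodule.mem_orthogonal W e).mp h w hw

end Vale.Agent.P262.H698
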