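import Vale.Agent.P262.H395.Tree

/-!
# P262, block ROT, part 2: the finite value cost of a change of the body

For two payoffs `fK`, `fL` with `fK ≤ fL + h` the nested values satisfy
`nest fL + fK ≤ nest fK + fL + (cost of h at the stops of L)` in conditional expectation.
-/

set_option linter.all false

open MeasureTheory ProbabilityTheory Set
open scoped ENNReal RealInnerProductSpace

namespace Vale.Agent.P262.H698

open Vale.Agent.P262.H395 Vale.Agent.P262.H395.Tree

variable {E : Type*} [NormedAddCommGroup E] [InnerProductSpace ℝ E] [FiniteDimensional ℝ E]
  [MeasurableSpace E] [BorelSpace E] {ι : Type*}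

/-- the cost at the stops of `f` (first level where the cap binds) of a change `h` -/
noncomputable def stopCost (f h : E → ℝ≥0∞) : Tree E ι → E → ℝ≥0∞
  | leaf _ => fun _ => 0
  | node W a c T => fun x =>
      if a x < fib W (fun y => nest (T (c y)) (fun _ => f) y) x then stopCost f h (T (c x)) x
      else min (a x) (fib W h x)

@[simp] lemma stopCost_leaf (f h : E → ℝ≥0∞) (i : ι) (x : E) :
    stopCost f h (leaf i : Tree E ι) x = 0 := rfl

@[simp] lemma stopCost_node (f h : E → ℝ≥0∞) (W : Submodule ℝ E) (a : E → ℝ≥0∞) (c : E → ℕ)
    (T : ℕ → Tree E ι) (x : E) : stopCost f h (node W a c T) x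
      = if a x < fib W (fun y => nest (T (c y)) (fun _ => f) y) x then stopCost f h (T (c x)) x
      else min (a x) (fib W h x) := rfl

lemma measurable_stopCost {T : Tree E ι} (hT : Good T) {f h : E → ℝ≥0∞} (hf : Measurable f)
    (hh : Measurable h) : Measurable (stopCost f h T) := by
  induction T with
  | leaf i => exact measurable_const
  | node W a c T ih =>
    obtain ⟨ha, haW, hc, hcW, hab, hg⟩ := hT
    refine Measurable.ite (measurableSet_lt ha (measurable_fib
      (measurable_sel (fun k => measurable_nest (hg k) fun _ => hf) hc))) ?_ ?_
    · exact measurable_sel (F := fun k => stopCost f h (T k)) (fun k => ih k (hg k)) hc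
    · exact ha.min (measurable_fib hh)

lemma fib_nest_ge {T : Tree E ι} (hT : Good T) {W : Submodule ℝ E} (hW : Above W T)
    {f : E → ℝ≥0∞} (hf : Measurable f) (x : E) :
    fib W f x ≤ fib W (nest T fun _ => f) x :=
  fib_le_nest (f := fun _ : ι => f) hT hW (fun _ => hf) x

/-- **Finite value cost, conditional form.** -/
theorem value_cost {T : Tree E ι} (hT : Good T) {fK fL h : E → ℝ≥0∞}
    (hK : Measurable fK) (hL : Measurable fL) (hh : Measurable h)
    (hKL : ∀ x, fK x ≤ fL x + h x) :
    ∀ {W : Submodule ℝ E} (_ : Above W T) (x : E),
      fib W (nest T fun _ => fL) x + fib W fK x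
        ≤ fib W (nest T fun _ => fK) x + fib W fL x + fib W (stopCost fL h T) x := by
  induction T with
  | leaf i =>
    intro W _ x
    simp only [nest_leaf]
    rw [add_comm (fib W fL x)]
    exact le_self_add
  | node V a c T ih =>
    intro W hW x
    obtain ⟨ha, haW, hc, hcW, hab, hg⟩ := hT
    have hnm : ∀ {f : E → ℝ≥0∞}, Measurable f →
        Measurable fun y => nest (T (c y)) (fun _ : ι => f) y := fun hf =>
      measurable_sel (fun k => measurable_nest (hg k) fun _ => hf) hc
    have hsm : Measurable fun y => stopCost fL h (T (c y)) y :=
      measurable_sel (fun k => measurable_stopCost (hg k) hL hh) hc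
    -- the pointwise statement at the node
    have key : ∀ y, nest (node V a c T) (fun _ => fL) y + fib V fK y
        ≤ nest (node V a c T) (fun _ => fK) y + fib V fL y
          + fib V (stopCost fL h (node V a c T)) y := by
      intro y
      set XL := fib V (fun z => nest (T (c z)) (fun _ => fL) z) y with hXL
      set XK := fib V (fun z => nest (T (c z)) (fun _ => fK) z) y with hXK
      have hst : fib V (stopCost fL h (node V a c T)) y
          = if a y < XL then fib V (stopCost fL h (T (c y))) y else min (a y) (fib V h y) := by
        have e1 : ∀ z, stopCost fL h (node V a c T) (mix V y z)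
            = if a y < XL then stopCost fL h (T (c y)) (mix V y z) else min (a y) (fib V h y) := by
          intro z
          rw [stopCost_node, haW.mix, (inv_fib V _).mix, (inv_fib V h).mix, hcW.mix]
        have e2 : fib V (stopCost fL h (node V a c T)) y
            = ∫⁻ z, (if a y < XL then stopCost fL h (T (c y)) (mix V y z)
              else min (a y) (fib V h y)) ∂stdGaussian E := by
          show ∫⁻ z, _ ∂_ = _
          exact lintegral_congr e1
        rw [e2]
        split_ifs with h1
        · rfl
        · simp
      rw [hst, nest_node, nest_node]
      rw [← hXL, ← hXK]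
      split_ifs with h1
      · rw [max_eq_right h1.le]
        have := ih (c y) (hg (c y)) (hab (c y)) y
        have s1 : XL = fib V (nest (T (c y)) fun _ => fL) y :=
          fib_sel hcW (fun k z => nest (T k) (fun _ => fL) z) y
        have s2 : XK = fib V (nest (T (c y)) fun _ => fK) y :=
          fib_sel hcW (fun k z => nest (T k) (fun _ => fK) z) y
        rw [← s1, ← s2] at this
        refine this.trans ?_
        gcongr
        exact le_max_right _ _
      · rw [max_eq_left (not_lt.mp h1)]
        have hD : fib V fK y ≤ fib V fL y + fib V h y := by
          rw [← fib_add hL]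
          exact fib_mono hKL y
        have hXD : fib V fK y ≤ XK := by
          have s2 : XK = fib V (nest (T (c y)) fun _ => fK) y :=
          fib_sel hcW (fun k z => nest (T k) (fun _ => fK) z) y
          rw [s2]
          exact fib_nest_ge (hg _) (hab _) hK y
        rcases le_total (fib V fK y) (a y) with h2 | h2
        · have : fib V fK y ≤ fib V fL y + min (a y) (fib V h y) := by
            rcases le_total (a y) (fib V h y) with h3 | h3
            · rw [min_eq_left h3]
              exact h2.trans le_add_self
            · rw [min_eq_right h3]
              exact hD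
          calc a y + fib V fK y ≤ a y + (fib V fL y + min (a y) (fib V h y)) := by gcongr
            _ = a y + fib V fL y + min (a y) (fib V h y) := (add_assoc _ _ _).symm
            _ ≤ max (a y) XK + fib V fL y + min (a y) (fib V h y) := by
                gcongr
                exact le_max_left _ _
        · have : a y ≤ fib V fL y + min (a y) (fib V h y) := by
            rcases le_total (a y) (fib V h y) with h3 | h3
            · rw [min_eq_left h3]
              exact le_add_self
            · rw [min_eq_right h3]
              exact h2.trans hD
          calc a y + fib V fK y ≤ (fib V fL y + min (a y) (fib V h y)) + max (a y) XK := by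
                gcongr
                exact hXD.trans (le_max_right _ _)
            _ = max (a y) XK + fib V fL y + min (a y) (fib V h y) := by ring
    -- average over the fibres of `W`
    have m1 : Measurable (nest (node V a c T) (fun _ : ι => fL)) :=
      ha.max (measurable_fib (hnm hL))
    have m2 : Measurable (nest (node V a c T) (fun _ : ι => fK)) :=
      ha.max (measurable_fib (hnm hK))
    have m3 : Measurable (stopCost fL h (node V a c T)) :=
      measurable_stopCost (T := node V a c T) ⟨ha, haW, hc, hcW, hab, hg⟩ hL hh
    have hVW : W ≤ V := hW
    have a1 := fib_mono (W := W) key x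
    rw [fib_add m1, fib_tower hVW hK] at a1
    have a2 : fib W (fun y => nest (node V a c T) (fun _ => fK) y + fib V fL y
          + fib V (stopCost fL h (node V a c T)) y) x
        = fib W (nest (node V a c T) fun _ => fK) x + fib W fL x
          + fib W (stopCost fL h (node V a c T)) x := by
      rw [fib_add_right (W := W) (f := fun y => nest (node V a c T) (fun _ => fK) y + fib V fL y)
        (measurable_fib m3), fib_add m2, fib_tower hVW hL, fib_tower hVW m3]
    rw [a2] at a1
    exact a1

/-- **Finite value cost.** The two payoffs have the same conditional expectations given `W`. -/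
theorem value_cost' {T : Tree E ι} (hT : Good T) {fK fL h : E → ℝ≥0∞}
    (hK : Measurable fK) (hL : Measurable fL) (hh : Measurable h)
    (hKL : ∀ x, fK x ≤ fL x + h x) {W : Submodule ℝ E} (hW : Above W T) (x : E)
    (heq : fib W fL x = fib W fK x) (hfin : fib W fK x ≠ ∞) :
      fib W (nest T fun _ => fL) x
        ≤ fib W (nest T fun _ => fK) x + fib W (stopCost fL h T) x := by
  have := value_cost hT hK hL hh hKL hW x
  rw [heq, add_right_comm] at this
  exact (ENNReal.add_le_add_iff_right hfin).mp this

/-- the sum of all capped costs along the path (no policy any more) -/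
noncomputable def pathCost (f h : E → ℝ≥0∞) : Tree E ι → E → ℝ≥0∞
  | leaf _ => fun _ => 0
  | node W a c T => fun x =>
      (if fib W f x ≤ a x then min (a x) (fib W h x) else 0) + pathCost f h (T (c x)) x

@[simp] lemma pathCost_leaf (f h : E → ℝ≥0∞) (i : ι) (x : E) :
    pathCost f h (leaf i : Tree E ι) x = 0 := rfl

@[simp] lemma pathCost_node (f h : E → ℝ≥0∞) (W : Submodule ℝ E) (a : E → ℝ≥0∞) (c : E → ℕ)
    (T : ℕ → Tree E ι) (x : E) : pathCost f h (node W a c T) x
      = (if fib W f x ≤ a x then min (a x) (fib W h x) else 0) + pathCost f h (T (c x)) x := rfl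

lemma stopCost_le_pathCost {T : Tree E ι} (hT : Good T) {f h : E → ℝ≥0∞} (hf : Measurable f)
    (x : E) : stopCost f h T x ≤ pathCost f h T x := by
  induction T generalizing x with
  | leaf i => exact le_rfl
  | node W a c T ih =>
    obtain ⟨ha, haW, hc, hcW, hab, hg⟩ := hT
    rw [stopCost_node, pathCost_node]
    split_ifs with h1 h2 h2
    · exact (ih (c x) (hg _) x).trans le_add_self
    · exact (ih (c x) (hg _) x).trans le_add_self
    · exact le_self_add
    · exfalso
      apply h2
      have s : fib W (fun y => nest (T (c y)) (fun _ => f) y) x
          = fib W (nest (T (c x)) fun _ => f) x :=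
        fib_sel hcW (fun k z => nest (T k) (fun _ => f) z) x
      rw [s] at h1
      exact (fib_nest_ge (hg _) (hab _) hf x).trans (not_lt.mp h1)

end Vale.Agent.P262.H698
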