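import Vale.Agent.P262.H698.Level

/-!
# P262, block ROT, part 6: exponential moments of labels
-/

set_option linter.all false

open MeasureTheory ProbabilityTheory Set Module
open scoped ENNReal RealInnerProductSpace

namespace Vale.Agent.P262.H698

open Vale.Agent.P262.H395

/-- `E exp(s u²)` -/
noncomputable def Bf (s : ℝ) : ℝ≥0∞ := ENNReal.ofReal (1 / √(1 - 2 * s))

lemma exp_sq_one {s : ℝ} (hs : s < 1 / 2) :
    ∫⁻ u, ENNReal.ofReal (Real.exp (s * u ^ 2)) ∂gaussianReal 0 1 = Bf s := by
  have hb : 0 < 1 / 2 - s := by linarith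
  rw [gaussianReal_of_var_ne_zero 0 one_ne_zero,
    lintegral_withDensity_eq_lintegral_mul _ (measurable_gaussianPDF 0 1) (by fun_prop)]
  have e1 : ∀ u : ℝ, (gaussianPDF 0 1 * fun u => ENNReal.ofReal (Real.exp (s * u ^ 2))) u
      = ENNReal.ofReal ((√(2 * Real.pi))⁻¹ * Real.exp (-(1 / 2 - s) * u ^ 2)) := by
    intro u
    simp only [Pi.mul_apply, gaussianPDF]
    rw [← ENNReal.ofReal_mul (gaussianPDFReal_nonneg _ _ _), gpdf_form, mul_assoc,
      ← Real.exp_add]
    congr 3
    ring
  simp_rw [e1]
  rw [← ofReal_integral_eq_lintegral_ofReal ((integrable_exp_neg_mul_sq hb).const_mul _)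
    (ae_of_all _ fun u => by positivity), integral_const_mul, integral_gaussian]
  unfold Bf
  congr 1
  have hpi := Real.pi_pos
  rw [Real.sqrt_div hpi.le, Real.sqrt_mul (by norm_num) Real.pi]
  have e2 : √(1 - 2 * s) = √2 * √(1 / 2 - s) := by
    rw [← Real.sqrt_mul (by norm_num)]
    congr 1
    ring
  rw [e2]
  have h1 : √Real.pi ≠ 0 := (Real.sqrt_pos.mpr hpi).ne'
  have h2 : √(1 / 2 - s) ≠ 0 := (Real.sqrt_pos.mpr hb).ne'
  have h3 : √(2:ℝ) ≠ 0 := (Real.sqrt_pos.mpr (by norm_num)).ne'
  field_simp

lemma one_le_Bf {s : ℝ} (h0 : 0 ≤ s) (hs : s < 1 / 2) : 1 ≤ Bf s := by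
  unfold Bf
  rw [ENNReal.one_le_ofReal, le_div_iff₀ (Real.sqrt_pos.mpr (by linarith)), one_mul]
  rw [Real.sqrt_le_one]
  linarith

variable {E : Type*} [NormedAddCommGroup E] [InnerProductSpace ℝ E] [FiniteDimensional ℝ E]
  [MeasurableSpace E] [BorelSpace E]

lemma sp_sup {W : Submodule ℝ E} {v : E} (hv : ‖v‖ = 1) (hvW : v ∈ Wᗮ) (z : E) :
    (W ⊔ Submodule.span ℝ {v}).starProjection z = W.starProjection z + ⟪z, v⟫ • v := by
  apply Submodule.eq_starProjection_of_mem_of_inner_eq_zero
  · exact Submodule.add_mem_sup (Submodule.starProjection_apply_mem W z)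
      (Submodule.smul_mem _ _ (Submodule.mem_span_singleton_self v))
  · intro w hw
    obtain ⟨w1, hw1, w2, hw2, rfl⟩ := Submodule.mem_sup.mp hw
    obtain ⟨t, rfl⟩ := Submodule.mem_span_singleton.mp hw2
    have h1 : ⟪z - W.starProjection z, w1⟫ = 0 :=
      Submodule.starProjection_inner_eq_zero z w1 hw1
    have h2 : ⟪v, w1⟫ = 0 := by
      rw [real_inner_comm]; exact (Submodule.mem_orthogonal W v).mp hvW w1 hw1
    have h3 : ⟪W.starProjection z, v⟫ = 0 :=
      (Submodule.mem_orthogonal W v).mp hvW _ (Submodule.starProjection_apply_mem W z)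
    have h4 : ⟪v, v⟫ = (1:ℝ) := by rw [real_inner_self_eq_norm_sq, hv]; norm_num
    rw [← sub_sub, inner_sub_left, inner_add_right, inner_add_right, h1, inner_smul_left,
      inner_smul_left, h2, inner_smul_right, inner_smul_right, inner_sub_left, h3, h4]
    simp
    ring

/-- squared norm of the part of the label between `W` and `W'` -/
noncomputable def NN (W W' : Submodule ℝ E) (y : E) : ℝ :=
  ‖W'.starProjection y - W.starProjection y‖ ^ 2

lemma NN_nonneg (W W' : Submodule ℝ E) (y : E) : 0 ≤ NN W W' y := by unfold NN; positivity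

lemma sp_sp {W W' : Submodule ℝ E} (h : W ≤ W') (y : E) :
    W'.starProjection (W.starProjection y) = W.starProjection y :=
  Submodule.starProjection_eq_self_iff.mpr (h (Submodule.starProjection_apply_mem W y))

lemma sp_sp' {W W' : Submodule ℝ E} (h : W ≤ W') (y : E) :
    W.starProjection (W'.starProjection y) = W.starProjection y := by
  have h3 : y - W'.starProjection y ∈ Wᗮ :=
    Submodule.orthogonal_le h (Submodule.sub_starProjection_mem_orthogonal y)
  have h4 := proj_eq_zero h3
  rw [map_sub, sub_eq_zero] at h4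
  exact h4.symm

/-- `P_{W'} y - P_W y` is orthogonal to `W` -/
lemma diff_mem_orth {W W' : Submodule ℝ E} (h : W ≤ W') (y : E) :
    W'.starProjection y - W.starProjection y ∈ Wᗮ := by
  rw [← Submodule.starProjection_apply_eq_zero_iff, map_sub, sp_sp' h, proj_proj, sub_self]

/-- Pythagoras for labels -/
lemma NN_add {W W1 W' : Submodule ℝ E} (h1 : W ≤ W1) (h2 : W1 ≤ W') (y z : E) :
    ‖(W1.starProjection y - W.starProjection y) + (W'.starProjection z - W1.starProjection z)‖ ^ 2
      = NN W W1 y + NN W1 W' z := by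
  have hin : W1.starProjection y - W.starProjection y ∈ W1 :=
    Submodule.sub_mem _ (Submodule.starProjection_apply_mem W1 y)
      (h1 (Submodule.starProjection_apply_mem W y))
  have horth : ⟪W1.starProjection y - W.starProjection y,
      W'.starProjection z - W1.starProjection z⟫ = 0 :=
    (Submodule.mem_orthogonal W1 _).mp (diff_mem_orth h2 z) _ hin
  have := norm_add_sq_eq_norm_sq_add_norm_sq_of_inner_eq_zero _ _ horth
  unfold NN
  simpa [sq] using this

lemma NN_split {W W1 W' : Submodule ℝ E} (h1 : W ≤ W1) (h2 : W1 ≤ W') (y : E) :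
    NN W W' y = NN W W1 y + NN W1 W' y := by
  rw [← NN_add h1 h2 y y]
  unfold NN
  congr 2
  abel

lemma continuous_NN (W W' : Submodule ℝ E) : Continuous (NN W W') := by
  unfold NN
  fun_prop

lemma measurable_NN (W W' : Submodule ℝ E) : Measurable (NN W W') := (continuous_NN W W').measurable

lemma finrank_lt_of_orth {W W' : Submodule ℝ E} (h : W ≤ W') (hne : finrank ℝ W < finrank ℝ W') :
    ∃ v ∈ W', v ∈ Wᗮ ∧ ‖v‖ = 1 := by
  have hlt : W < W' := lt_of_le_of_ne h (fun e => by rw [e] at hne; exact lt_irrefl _ hne)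
  obtain ⟨x, hx, hxW⟩ := SetLike.exists_of_lt hlt
  set v := x - W.starProjection x with hv
  have hvo : v ∈ Wᗮ := Submodule.sub_starProjection_mem_orthogonal x
  have hvW' : v ∈ W' := Submodule.sub_mem _ hx (h (Submodule.starProjection_apply_mem W x))
  have hv0 : v ≠ 0 := by
    intro h0
    apply hxW
    rw [hv, sub_eq_zero] at h0
    rw [h0]
    exact Submodule.starProjection_apply_mem W x
  refine ⟨(‖v‖)⁻¹ • v, Submodule.smul_mem _ _ hvW', Submodule.smul_mem _ _ hvo, ?_⟩
  rw [norm_smul, norm_inv, norm_norm, inv_mul_cancel₀ (norm_ne_zero_iff.mpr hv0)]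

/-- exponential moment of the label between `W` and `W'` -/
theorem exp_NN {s : ℝ} (hs : s < 1 / 2) (W' : Submodule ℝ E) :
    ∀ (n : ℕ) (W : Submodule ℝ E), W ≤ W' → finrank ℝ W' - finrank ℝ W = n →
      ∫⁻ z, ENNReal.ofReal (Real.exp (s * NN W W' z)) ∂stdGaussian E = Bf s ^ n := by
  intro n
  induction n with
  | zero =>
    intro W hW hn
    have : W = W' := by
      apply Submodule.eq_of_le_of_finrank_le hW
      omega
    subst this
    simp [NN]
  | succ n ih =>
    intro W hW hn
    obtain ⟨v, hvW', hvo, hv1⟩ := finrank_lt_of_orth hW (by omega)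
    set W1 := W ⊔ Submodule.span ℝ {v} with hW1
    have hW1W' : W1 ≤ W' := sup_le hW (by rw [Submodule.span_singleton_le_iff_mem]; exact hvW')
    have hWW1 : W ≤ W1 := le_sup_left
    have hv0 : v ≠ 0 := by
      intro h0; rw [h0, norm_zero] at hv1; exact zero_ne_one hv1
    have hfr : finrank ℝ W1 = finrank ℝ W + 1 := by
      have h1 := Submodule.finrank_sup_add_finrank_inf_eq W (Submodule.span ℝ {v})
      have h2 : W ⊓ Submodule.span ℝ {v} = ⊥ := by
        rw [eq_bot_iff]
        rintro w ⟨hw1, hw2⟩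
        obtain ⟨t, rfl⟩ := Submodule.mem_span_singleton.mp hw2
        have h3 : t • v ∈ Wᗮ := Submodule.smul_mem _ _ hvo
        exact (Submodule.disjoint_def.mp (Submodule.orthogonal_disjoint W)) _ hw1 h3
      rw [h2, finrank_bot, add_zero, finrank_span_singleton hv0] at h1
      exact h1
    have hNNv : ∀ z, NN W W1 z = ⟪z, v⟫ ^ 2 := by
      intro z
      unfold NN
      rw [hW1, sp_sup hv1 hvo, add_sub_cancel_left, norm_smul, hv1, mul_one, Real.norm_eq_abs,
        sq_abs]
    have hinv : ∀ z u, NN W1 W' (lin v z u) = NN W1 W' z := by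
      intro z u
      have hvW1 : v ∈ W1 := (le_sup_right : Submodule.span ℝ {v} ≤ W1)
        (Submodule.mem_span_singleton_self v)
      have p1 : W'.starProjection v = v := Submodule.starProjection_eq_self_iff.mpr hvW'
      have p2 : W1.starProjection v = v := Submodule.starProjection_eq_self_iff.mpr hvW1
      unfold NN lin
      simp only [map_add, map_sub, map_smul, p1, p2]
      congr 2
      abel
    have hm : Measurable fun z : E => ENNReal.ofReal (Real.exp (s * NN W W' z)) :=
      ENNReal.measurable_ofReal.comp (Real.measurable_exp.comp ((measurable_NN W W').const_mul s))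
    have hm1 : Measurable fun z : E => ENNReal.ofReal (Real.exp (s * NN W1 W' z)) :=
      ENNReal.measurable_ofReal.comp (Real.measurable_exp.comp ((measurable_NN W1 W').const_mul s))
    rw [← lintegral_fib (W := perp v) hm]
    have e1 : ∀ z, fib (perp v) (fun z => ENNReal.ofReal (Real.exp (s * NN W W' z))) z
        = ENNReal.ofReal (Real.exp (s * NN W1 W' z)) * Bf s := by
      intro z
      rw [fib_line hv1 hm]
      have e2 : ∀ u, ENNReal.ofReal (Real.exp (s * NN W W' (lin v z u)))
          = ENNReal.ofReal (Real.exp (s * NN W1 W' z)) * ENNReal.ofReal (Real.exp (s * u ^ 2)) := by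
        intro u
        rw [NN_split hWW1 hW1W', hNNv, inner_lin hv1, hinv, ← ENNReal.ofReal_mul (Real.exp_nonneg _),
          ← Real.exp_add]
        congr 2
        ring
      simp_rw [e2]
      rw [lintegral_const_mul _ (by fun_prop), exp_sq_one hs]
    simp_rw [e1]
    rw [lintegral_mul_const _ hm1, ih W1 hW1W' (by omega), pow_succ]

/-- the weight of a label, line coordinate removed -/
noncomputable def gw (s : ℝ) (W0 W : Submodule ℝ E) (e : E) (y : E) : ℝ≥0∞ :=
  ENNReal.ofReal (Real.exp (s * NN W0 W (lin e y 0)))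

lemma measurable_gw (s : ℝ) (W0 W : Submodule ℝ E) (e : E) : Measurable (gw s W0 W e) := by
  unfold gw
  have : Measurable fun y : E => NN W0 W (lin e y 0) :=
    (measurable_NN W0 W).comp ((measurable_lin e).comp (measurable_id.prodMk measurable_const))
  exact ENNReal.measurable_ofReal.comp (Real.measurable_exp.comp (this.const_mul s))

/-- labels of a mixture -/
lemma NN_mix {W0 Wp W : Submodule ℝ E} (h0 : W0 ≤ Wp) (h1 : Wp ≤ W) (y z : E) :
    NN W0 W (mix Wp y z) = NN W0 Wp y + NN Wp W z := by
  rw [← NN_add h0 h1]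
  unfold NN mix
  have e1 : W.starProjection (Wp.starProjection y + (z - Wp.starProjection z))
      = Wp.starProjection y + (W.starProjection z - Wp.starProjection z) := by
    rw [map_add, map_sub, sp_sp h1, sp_sp h1]
  have e2 : W0.starProjection (Wp.starProjection y + (z - Wp.starProjection z))
      = W0.starProjection y := by
    rw [map_add, map_sub, sp_sp' h0, sp_sp' h0, sub_self, add_zero]
  rw [e1, e2]
  congr 2
  abel

lemma NN_lin_le {W0 W : Submodule ℝ E} {e : E} (he : ‖e‖ = 1) (heW : e ∈ W) (he0 : e ∈ W0ᗮ)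
    (y : E) : NN W0 W y = NN W0 W (lin e y 0) + ⟪y, e⟫ ^ 2 := by
  have p1 : W.starProjection e = e := Submodule.starProjection_eq_self_iff.mpr heW
  have p2 : W0.starProjection e = 0 := proj_eq_zero he0
  have e1 : W.starProjection (lin e y 0) - W0.starProjection (lin e y 0)
      = (W.starProjection y - W0.starProjection y) - ⟪y, e⟫ • e := by
    unfold lin
    simp only [map_add, map_sub, map_smul, p1, p2, zero_smul, smul_zero, map_zero, sub_zero,
      add_zero]
    abel
  have e2 : ⟪W.starProjection y - W0.starProjection y, e⟫ = ⟪y, e⟫ := by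
    rw [inner_sub_left, Submodule.inner_starProjection_left_eq_right,
      Submodule.inner_starProjection_left_eq_right, p1, p2, inner_zero_right, sub_zero]
  unfold NN
  rw [e1, norm_sub_sq_real (W.starProjection y - W0.starProjection y) (⟪y, e⟫ • e),
    inner_smul_right, e2, norm_smul, he, mul_one, Real.norm_eq_abs, sq_abs]
  ring

/-- averaging the weight over the labels between `Wp` and `W` -/
lemma fib_gw {s : ℝ} (h0 : 0 ≤ s) (hs : s < 1 / 2) {W0 Wp W : Submodule ℝ E} (h01 : W0 ≤ Wp)
    (h1 : Wp ≤ W) {e : E} (he : ‖e‖ = 1) (heW : e ∈ W) (he0 : e ∈ W0ᗮ)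
    (hor : e ∈ Wp ∨ e ∈ Wpᗮ) (y : E) :
    fib Wp (gw s W0 W e) y ≤ gw s W0 Wp e y * Bf s ^ (finrank ℝ W - finrank ℝ Wp) := by
  have hm1 : Measurable fun z : E => ENNReal.ofReal (Real.exp (s * NN Wp W z)) :=
    ENNReal.measurable_ofReal.comp (Real.measurable_exp.comp ((measurable_NN Wp W).const_mul s))
  rw [← exp_NN hs W _ Wp h1 rfl, ← lintegral_const_mul _ hm1]
  unfold fib gw
  apply lintegral_mono
  intro z
  show ENNReal.ofReal (Real.exp (s * NN W0 W (lin e (mix Wp y z) 0)))
    ≤ ENNReal.ofReal (Real.exp (s * NN W0 Wp (lin e y 0))) * ENNReal.ofReal (Real.exp (s * NN Wp W z))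
  rw [← ENNReal.ofReal_mul (Real.exp_nonneg _), ← Real.exp_add, ← mul_add]
  apply ENNReal.ofReal_le_ofReal
  apply Real.exp_le_exp.mpr
  apply mul_le_mul_of_nonneg_left _ h0
  rcases hor with h | h
  · rw [← mix_lin h, NN_mix h01 h1]
  · have h2 := NN_lin_le he heW he0 (mix Wp y z)
    have h3 : NN W0 Wp (lin e y 0) = NN W0 Wp y := by
      have p1 : Wp.starProjection e = 0 := proj_eq_zero h
      have p2 : W0.starProjection e = 0 := proj_eq_zero he0
      unfold NN lin
      simp only [map_add, map_sub, map_smul, p1, p2, smul_zero, sub_zero, add_zero]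
    rw [NN_mix h01 h1] at h2
    rw [h3]
    have := sq_nonneg ⟪mix Wp y z, e⟫
    linarith

end Vale.Agent.P262.H698
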