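import Vale.Agent.P262.H698.Fibre

/-!
# P262, block ROT, part 5: moves in one label direction
-/

set_option linter.all false

open MeasureTheory ProbabilityTheory Set
open scoped ENNReal RealInnerProductSpace

namespace Vale.Agent.P262.H698

open Vale.Agent.P262.H395

/-! ### the profile `YY` -/

/-- weight of the part of the line beyond the set -/
noncomputable def YY (τ : ℝ) (S : Set ℝ) : ℝ≥0∞ :=
  ∫⁻ r in Ioi (0:ℝ), ENNReal.ofReal (r * Real.exp (-(τ * r ^ 2))) * nz S r

lemma YY_mono (τ : ℝ) {S T : Set ℝ} (h : S ⊆ T) : YY τ S ≤ YY τ T :=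
  lintegral_mono fun r => mul_le_mul_right (nz_mono h r) _

/-! ### the first moment bound for `HH` -/

section HHbound

variable {Ω : Type*} [MeasurableSpace Ω] {P : Measure Ω}

lemma HH_le_add [SFinite P] {lam : Ω → ℝ} (hlam : Measurable lam) {c : ℝ} (hc : 0 ≤ c)
    (α : ℝ≥0∞) : HH P lam α ≤ ENNReal.ofReal c * α + ∫⁻ z, ENNReal.ofReal (lam z - c) ∂P := by
  unfold HH
  have e1 : (Ioi (0:ℝ)) = Ioc 0 c ∪ Ioi c := (Ioc_union_Ioi_eq_Ioi hc).symm
  rw [e1, lintegral_union measurableSet_Ioi (by
    rw [Set.disjoint_left]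
    intro x hx hx'
    exact absurd hx.2 (not_le.mpr hx'))]
  apply add_le_add
  · calc ∫⁻ l in Ioc (0:ℝ) c, min α (P {z | l < lam z}) ≤ ∫⁻ _ in Ioc (0:ℝ) c, α :=
        lintegral_mono fun _ => min_le_left _ _
      _ = ENNReal.ofReal c * α := by
        rw [lintegral_const, Measure.restrict_apply MeasurableSet.univ, univ_inter,
          Real.volume_Ioc, sub_zero, mul_comm]
  · have e2 : ∫⁻ z, ENNReal.ofReal (lam z - c) ∂P
        = ∫⁻ z, ENNReal.ofReal (max (lam z - c) 0) ∂P := by
      apply lintegral_congr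
      intro z
      rcases le_total (lam z - c) 0 with h | h
      · rw [max_eq_right h, ENNReal.ofReal_of_nonpos h, ENNReal.ofReal_zero]
      · rw [max_eq_left h]
    rw [e2, lintegral_eq_lintegral_meas_lt (f := fun z => max (lam z - c) 0) P
      (ae_of_all _ fun z => le_max_right _ _)
      ((hlam.sub_const c).max measurable_const).aemeasurable]
    have e3 : ∫⁻ l in Ioi c, min α (P {z | l < lam z})
        ≤ ∫⁻ l in Ioi c, P {z | l < lam z} := lintegral_mono fun _ => min_le_right _ _
    refine e3.trans ?_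
    rw [← lintegral_indicator measurableSet_Ioi, ← lintegral_indicator measurableSet_Ioi]
    rw [← lintegral_add_right_eq_self _ c]
    apply lintegral_mono
    intro t
    show (Ioi c).indicator (fun l => P {z | l < lam z}) (t + c)
      ≤ (Ioi 0).indicator (fun t => P {a | t < max (lam a - c) 0}) t
    by_cases ht : 0 < t
    · rw [indicator_of_mem (show t + c ∈ Ioi c by simpa using ht),
        indicator_of_mem (show t ∈ Ioi (0:ℝ) from ht)]
      apply measure_mono
      intro z hz
      simp only [mem_setOf_eq] at hz ⊢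
      exact lt_max_of_lt_left (by linarith)
    · rw [indicator_of_notMem (show t + c ∉ Ioi c by simpa using ht)]
      exact bot_le

end HHbound

lemma abs_tail (M : ℝ) (hM : 0 ≤ M) :
    ∫⁻ t, ENNReal.ofReal (|t| - M) ∂gaussianReal 0 1 ≤ ENNReal.ofReal (Real.exp (-(M ^ 2) / 2)) := by
  have hsym : ∫⁻ t in Iio (0:ℝ), ENNReal.ofReal (|t| - M) ∂gaussianReal 0 1
      = ∫⁻ t in Ioi (0:ℝ), ENNReal.ofReal (|t| - M) ∂gaussianReal 0 1 := by
    have h := gaussianReal_map_neg (μ := 0) (v := 1)
    rw [neg_zero] at h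
    conv_lhs => rw [← h]
    rw [setLIntegral_map measurableSet_Iio (by fun_prop) measurable_neg]
    have : (Neg.neg ⁻¹' Iio (0:ℝ)) = Ioi (0:ℝ) := by
      ext x
      simp
    rw [this]
    apply lintegral_congr
    intro t
    rw [abs_neg]
  have hpos : ∫⁻ t in Ioi (0:ℝ), ENNReal.ofReal (|t| - M) ∂gaussianReal 0 1
      ≤ gaussianPDF 0 1 M := by
    rw [gpdf_eq M, abs_of_nonneg hM, gaussianReal_of_var_ne_zero 0 one_ne_zero,
      restrict_withDensity measurableSet_Ioi,
      lintegral_withDensity_eq_lintegral_mul _ (measurable_gaussianPDF 0 1) (by fun_prop),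
      ← lintegral_indicator measurableSet_Ioi, ← lintegral_indicator measurableSet_Ioi]
    apply lintegral_mono
    intro t
    by_cases ht : 0 < t
    · rw [indicator_of_mem (show t ∈ Ioi (0:ℝ) from ht)]
      simp only [Pi.mul_apply]
      by_cases htM : M < t
      · rw [indicator_of_mem (show t ∈ Ioi M from htM), mul_comm]
        gcongr
        rw [abs_of_pos ht]
        linarith
      · rw [abs_of_pos ht, ENNReal.ofReal_of_nonpos (by linarith), mul_zero]
        exact bot_le
    · rw [indicator_of_notMem (show t ∉ Ioi (0:ℝ) from ht)]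
      exact bot_le
  have hzero : gaussianReal 0 1 ({0} : Set ℝ) = 0 := by
    haveI := noAtoms_gaussianReal (μ := 0) (v := 1) one_ne_zero
    exact measure_singleton 0
  have e : ∫⁻ t, ENNReal.ofReal (|t| - M) ∂gaussianReal 0 1
      ≤ ∫⁻ t in Iio (0:ℝ), ENNReal.ofReal (|t| - M) ∂gaussianReal 0 1
        + ∫⁻ t in Ioi (0:ℝ), ENNReal.ofReal (|t| - M) ∂gaussianReal 0 1 := by
    rw [← lintegral_union measurableSet_Ioi (by
      rw [Set.disjoint_left]
      intro x hx hx'
      exact absurd (mem_Iio.mp hx) (not_lt.mpr (mem_Ioi.mp hx').le))]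
    rw [← setLIntegral_univ]
    apply lintegral_mono_set'
    have : ∀ᵐ t ∂gaussianReal 0 1, t ≠ 0 := by
      rw [ae_iff]
      simpa using hzero
    filter_upwards [this] with t ht _
    rcases lt_or_gt_of_ne ht with h | h
    · left; exact h
    · right; exact h
  refine e.trans ?_
  rw [hsym]
  calc _ ≤ gaussianPDF 0 1 M + gaussianPDF 0 1 M := add_le_add hpos hpos
    _ = ENNReal.ofReal (2 * gaussianPDFReal 0 1 M) := by
        unfold gaussianPDF
        rw [← ENNReal.ofReal_add (gaussianPDFReal_nonneg _ _ _) (gaussianPDFReal_nonneg _ _ _)]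
        congr 1
        ring
    _ ≤ _ := by
        apply ENNReal.ofReal_le_ofReal
        rw [gpdf_form]
        have h2 : 2 * (√(2 * Real.pi))⁻¹ ≤ 1 := by
          have h3 : (2:ℝ) ≤ √(2 * Real.pi) := by
            have := Real.pi_gt_three
            apply Real.le_sqrt_of_sq_le
            linarith
          rw [← div_eq_mul_inv, div_le_one (by linarith)]
          exact h3
        have h4 := Real.exp_nonneg (-(M ^ 2) / 2)
        nlinarith

variable {E : Type*} [NormedAddCommGroup E] [InnerProductSpace ℝ E] [FiniteDimensional ℝ E]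
  [MeasurableSpace E] [BorelSpace E]

/-- bound for the profile of a displacement `κ0 + κ1 |⟪z, f⟫|` -/
lemma HH_gauss {lam : E → ℝ} (hlam : Measurable lam) {κ0 κ1 M : ℝ} (hκ0 : 0 ≤ κ0) (hκ1 : 0 ≤ κ1)
    (hM : 0 ≤ M) {f : E} (hf : ‖f‖ = 1) (hle : ∀ z, lam z ≤ κ0 + κ1 * |⟪z, f⟫|)
    {α : ℝ≥0∞} (hα : ENNReal.ofReal (Real.exp (-(M ^ 2) / 2)) ≤ α) :
    HH (stdGaussian E) lam α ≤ ENNReal.ofReal (κ0 + κ1 * (M + 1)) * α := by
  refine (HH_le_add (P := stdGaussian E) hlam (c := κ0 + κ1 * M) (by positivity) α).trans ?_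
  have h1 : ∫⁻ z, ENNReal.ofReal (lam z - (κ0 + κ1 * M)) ∂stdGaussian E
      ≤ ENNReal.ofReal κ1 * α := by
    calc ∫⁻ z, ENNReal.ofReal (lam z - (κ0 + κ1 * M)) ∂stdGaussian E
        ≤ ∫⁻ z, ENNReal.ofReal κ1 * ENNReal.ofReal (|⟪z, f⟫| - M) ∂stdGaussian E := by
          apply lintegral_mono
          intro z
          show ENNReal.ofReal (lam z - (κ0 + κ1 * M))
            ≤ ENNReal.ofReal κ1 * ENNReal.ofReal (|⟪z, f⟫| - M)
          rw [← ENNReal.ofReal_mul hκ1]
          apply ENNReal.ofReal_le_ofReal
          have := hle z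
          rw [mul_sub]
          linarith
      _ = ENNReal.ofReal κ1 * ∫⁻ t, ENNReal.ofReal (|t| - M) ∂gaussianReal 0 1 := by
          rw [lintegral_const_mul _ (by fun_prop), ← map_inner hf,
            lintegral_map (f := fun t => ENNReal.ofReal (|t| - M)) (by fun_prop) (by fun_prop)]
      _ ≤ ENNReal.ofReal κ1 * α := by
          gcongr
          exact (abs_tail M hM).trans hα
  calc _ ≤ ENNReal.ofReal (κ0 + κ1 * M) * α + ENNReal.ofReal κ1 * α := by gcongr
    _ = ENNReal.ofReal (κ0 + κ1 * (M + 1)) * α := by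
        rw [← add_mul, ← ENNReal.ofReal_add (by positivity) hκ1]
        congr 2
        ring

omit [MeasurableSpace E] [BorelSpace E] in
lemma mix_lin {W : Submodule ℝ E} {e : E} (heW : e ∈ W) (y z : E) (u : ℝ) :
    mix W (lin e y u) z = lin e (mix W y z) u := by
  have h1 : W.starProjection e = e := Submodule.starProjection_eq_self_iff.mpr heW
  have h2 : ⟪mix W y z, e⟫ = ⟪y, e⟫ := by
    unfold mix
    rw [inner_add_left, inner_sub_left, Submodule.inner_starProjection_left_eq_right,
      Submodule.inner_starProjection_left_eq_right, h1, sub_self, add_zero]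
  show W.starProjection (y - ⟪y, e⟫ • e + u • e) + (z - W.starProjection z)
    = mix W y z - ⟪mix W y z, e⟫ • e + u • e
  rw [h2]
  unfold mix
  rw [map_add, map_sub, map_smul, map_smul, h1]
  abel

/-- the capped cost at a node, with the zone `D ≤ a` -/
noncomputable def nodeCost (W : Submodule ℝ E) (a f h : E → ℝ≥0∞) (x : E) : ℝ≥0∞ :=
  if fib W f x ≤ a x then min (a x) (fib W h x) else 0

lemma measurable_nodeCost {W : Submodule ℝ E} {a f h : E → ℝ≥0∞} (ha : Measurable a)
    (hf : Measurable f) (hh : Measurable h) : Measurable (nodeCost W a f h) :=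
  Measurable.ite (measurableSet_le (measurable_fib hf) ha) (ha.min (measurable_fib hh))
    measurable_const

lemma inv_nodeCost {W : Submodule ℝ E} {a f h : E → ℝ≥0∞} (haW : Inv W a) :
    Inv W (nodeCost W a f h) := by
  intro x w hw
  unfold nodeCost
  rw [inv_fib W f x w hw, inv_fib W h x w hw, haW x w hw]

lemma nodeCost_mono {W : Submodule ℝ E} {a f h h' : E → ℝ≥0∞} (hh : ∀ x, h x ≤ h' x) (x : E) :
    nodeCost W a f h x ≤ nodeCost W a f h' x := by
  unfold nodeCost
  split_ifs
  · exact min_le_min_left _ (fib_mono hh x)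
  · exact le_rfl

lemma nodeCost_add {W : Submodule ℝ E} {a f h h' : E → ℝ≥0∞} (hh : Measurable h) (x : E) :
    nodeCost W a f (fun y => h y + h' y) x ≤ nodeCost W a f h x + nodeCost W a f h' x := by
  unfold nodeCost
  split_ifs
  · rw [fib_add hh]
    rcases le_total (a x) (fib W h x) with h1 | h1
    · rw [min_eq_left h1]
      exact (min_le_left _ _).trans le_self_add
    · rcases le_total (a x) (fib W h' x) with h2 | h2
      · rw [min_eq_left h2]
        exact (min_le_left _ _).trans le_add_self
      · rw [min_eq_right h1, min_eq_right h2]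
        exact min_le_right _ _
  · simp

lemma nodeCost_le_cap (W : Submodule ℝ E) (a f h : E → ℝ≥0∞) (x : E) :
    nodeCost W a f h x ≤ a x := by
  unfold nodeCost
  split_ifs
  · exact min_le_left _ _
  · exact bot_le

/-- **move in a label direction** -/
theorem label_move {W : Submodule ℝ E} {e : E} (he : ‖e‖ = 1) (heW : e ∈ W) {L : Set E}
    (hL : Convex ℝ L) (hLm : MeasurableSet L) {lam : E → ℝ} (hlam : Measurable lam)
    (h0 : ∀ x, 0 ≤ lam x) (hle : ∀ x u, lam (lin e x u) = lam x) {a : E → ℝ≥0∞}
    (ham : Measurable a) (hmono : ∀ x u r, |u| ≤ r → a (lin e x u) ≤ a (lin e x r))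
    {G : Set E} (hG : MeasurableSet G) (y : E) :
    fib (perp e) (fun x => G.indicator 1 x * nodeCost W a (Lᶜ.indicator 1) (exitI L lam e) x) y
      ≤ 4 * ∫⁻ r in Ioi (0:ℝ), ENNReal.ofReal r * gaussianPDF 0 1 r
        * HH (stdGaussian E) (fun z => lam (mix W y z)) (a (lin e y r))
        * nz {u | lin e y u ∈ G} r := by
  have mex : Measurable (exitI L lam e) := measurable_exitI hLm hlam e
  have mLc : Measurable (Lᶜ.indicator (1 : E → ℝ≥0∞)) := measurable_one.indicator hLm.compl
  have mnc := measurable_nodeCost (W := W) ham mLc mex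
  have mG : Measurable (G.indicator (1 : E → ℝ≥0∞)) := measurable_one.indicator hG
  rw [fib_line (F := fun x => G.indicator 1 x
    * nodeCost W a (Lᶜ.indicator 1) (exitI L lam e) x) he (mG.mul mnc)]
  -- the data of the line lemma
  set C : Set (ℝ × E) := {p | lin e (mix W y p.2) p.1 ∈ L} with hC
  have hCm : MeasurableSet C := by
    have : Measurable fun p : ℝ × E => lin e (mix W y p.2) p.1 :=
      (measurable_lin e).comp (((measurable_mix_right W y).comp measurable_snd).prodMk measurable_fst)
    exact this hLm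
  have hCc : ∀ z, {u | (u, z) ∈ C}.OrdConnected := fun z => line_conn hL e (mix W y z)
  have hlm : Measurable fun z => lam (mix W y z) := hlam.comp (measurable_mix_right W y)
  set A : ℝ → ℝ≥0∞ := fun u => a (lin e y u) with hA
  have hAm : Measurable A := ham.comp (measurable_lin_right e y)
  set S : Set ℝ := {u | lin e y u ∈ G ∧ fib W (Lᶜ.indicator 1) (lin e y u) ≤ a (lin e y u)} with hS
  have hSm : MeasurableSet S := by
    refine (measurable_lin_right e y hG).inter ?_
    exact measurableSet_le ((measurable_fib mLc).comp (measurable_lin_right e y)) hAm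
  have hfibL : ∀ u, fib W (Lᶜ.indicator 1) (lin e y u) = stdGaussian E {z | (u, z) ∉ C} := by
    intro u
    have hm : MeasurableSet {z : E | (u, z) ∉ C} := (measurable_prodMk_left hCm).compl
    rw [← lintegral_indicator_one hm]
    unfold fib
    apply lintegral_congr
    intro z
    rw [mix_lin heW]
    by_cases hz : lin e (mix W y z) u ∈ L
    · rw [indicator_of_notMem (by simpa using hz), indicator_of_notMem (by simpa [hC] using hz)]
    · rw [indicator_of_mem (by simpa using hz), indicator_of_mem (by simpa [hC] using hz)]; rfl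
  have hfibE : ∀ u, fib W (exitI L lam e) (lin e y u)
      = stdGaussian E {z | (u, z) ∈ C ∧ (u + lam (mix W y z), z) ∉ C} := by
    intro u
    have hm : MeasurableSet {z : E | (u, z) ∈ C ∧ (u + lam (mix W y z), z) ∉ C} := by
      have h1 := meas_exit (C := C) (lam := fun z => lam (mix W y z)) hCm hlm
      exact measurable_prodMk_left h1
    rw [← lintegral_indicator_one hm]
    unfold fib exitI
    apply lintegral_congr
    intro z
    rw [mix_lin heW]
    have hiff : lin e (mix W y z) u ∈ {x | x ∈ L ∧ x + lam x • e ∉ L}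
        ↔ z ∈ {z | (u, z) ∈ C ∧ (u + lam (mix W y z), z) ∉ C} := by
      simp only [mem_setOf_eq, hC, lin_add, hle]
    by_cases hz : z ∈ {z | (u, z) ∈ C ∧ (u + lam (mix W y z), z) ∉ C}
    · rw [indicator_of_mem (hiff.mpr hz), indicator_of_mem hz]; rfl
    · rw [indicator_of_notMem (fun h => hz (hiff.mp h)), indicator_of_notMem hz]
  have key := line_main (P := stdGaussian E) (C := C) (lam := fun z => lam (mix W y z)) hCm hCc hlm
    (fun z => h0 _) hAm (fun u r hur => hmono y u r hur) hSm (fun u hu => by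
      rw [← hfibL]; exact hu.2)
  calc ∫⁻ u, G.indicator 1 (lin e y u)
        * nodeCost W a (Lᶜ.indicator 1) (exitI L lam e) (lin e y u) ∂gaussianReal 0 1
      = ∫⁻ u in S, min (A u) (stdGaussian E {z | (u, z) ∈ C ∧ (u + lam (mix W y z), z) ∉ C})
          ∂gaussianReal 0 1 := by
        rw [← lintegral_indicator hSm]
        apply lintegral_congr
        intro u
        by_cases hu : lin e y u ∈ G
        · rw [indicator_of_mem hu]
          simp only [Pi.one_apply, one_mul]
          unfold nodeCost
          by_cases hD : fib W (Lᶜ.indicator 1) (lin e y u) ≤ a (lin e y u)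
          · rw [if_pos hD, indicator_of_mem (show u ∈ S from ⟨hu, hD⟩), hfibE]
          · rw [if_neg hD, indicator_of_notMem (fun h => hD h.2)]
        · rw [indicator_of_notMem hu, indicator_of_notMem (fun h => hu h.1), zero_mul]
    _ ≤ _ := key
    _ ≤ _ := by
        gcongr with r
        exact nz_mono (fun u hu => hu.1) r

end Vale.Agent.P262.H698
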