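import Vale.Agent.P262.H698.Rem

/-!
# P262, block ROT, part 9: the recursion over the tree for the moves in the components of `b`
-/

set_option linter.all false

open MeasureTheory ProbabilityTheory Set Module
open scoped ENNReal RealInnerProductSpace

namespace Vale.Agent.P262.H698

open Vale.Agent.P262.H395 Vale.Agent.P262.H395.Tree

variable {E : Type*} [NormedAddCommGroup E] [InnerProductSpace ℝ E] [FiniteDimensional ℝ E]
  [MeasurableSpace E] [BorelSpace E] {ι : Type*}

/-- the final constant -/
noncomputable def kap (P : Prm) : ℝ≥0∞ := 2 * (4 * YU P + 2 * ENNReal.ofReal (Real.exp 11))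

lemma pathCost_zero (T : Tree E ι) (f : E → ℝ≥0∞) (x : E) : pathCost f (fun _ => 0) T x = 0 := by
  induction T generalizing x with
  | leaf i => rfl
  | node W a c T ih =>
    rw [pathCost_node', ih]
    unfold nodeCost
    rw [fib_const]
    simp

lemma nodeCost_zero (W : Submodule ℝ E) (a f : E → ℝ≥0∞) (x : E) :
    nodeCost W a f (fun _ => 0) x = 0 := by
  unfold nodeCost
  rw [fib_const]
  simp

lemma sx_zero (L : Set E) (t : E → ℝ) : sx L t (0 : E) = fun _ => 0 := by
  funext x
  unfold sx
  rw [indicator_of_notMem]
  rintro ⟨h1, h2⟩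
  rw [smul_zero, add_zero] at h2
  exact h2 h1

theorem rem_sum {P : Prm} {β : ℝ≥0∞} (hβ : Small P β) (hhalf : 2 * β ≤ 1)
    {W0 : Submodule ℝ E} {φ : ℝ}
    {q : E → ℝ≥0∞} {Mf : E → ℝ} (hM1 : ∀ y, 1 ≤ Mf y) (hqW : Inv W0 q)
    (hMW : ∀ x, ∀ w ∈ W0ᗮ, Mf (x + w) = Mf x) (hqm : Measurable q) (hMm : Measurable Mf)
    {L : Set E} {θ b : E} {tb : E → ℝ} (R : RotData W0 θ b φ L tb) (T : Tree E ι) :
    ∀ (Wp : Submodule ℝ E) (_ : W0 ≤ Wp) (_ : ⟪b, Wp.starProjection θ⟫ = 0) (_ : Good T)
      (_ : Adm P W0 q Mf Wp T) (_ : AllW (fun W => θ ∈ W) T)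
      (G : Set E) (_ : MeasurableSet G) (_ : InvS Wp G) (x : E),
      fib W0 (fun y => G.indicator 1 y * pathCost (Lᶜ.indicator 1)
        (sx L (fun z => 2 ^ (kk W0 Wp + 1) * tb z) (b - Wp.starProjection b)) T y) x
        ≤ kap P * β * KK P φ q Mf x
          * fib W0 (fun y => G.indicator 1 y * vw P W0 Wp y) x := by
  have hθ := R.hθ
  have hb := R.hb
  have hφ := R.hφ
  have hL := R.conv
  have hLm := R.meas
  have mLc : Measurable (Lᶜ.indicator (1 : E → ℝ≥0∞)) := measurable_one.indicator hLm.compl
  have mKK : Measurable (KK P φ q Mf) := by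
    unfold KK
    exact (ENNReal.measurable_ofReal.comp (hMm.const_mul _)).mul hqm
  have hKi : Inv W0 (KK P φ q Mf) := KK_inv hqW hMW
  have mlB := measurable_lamB W0 θ φ
  induction T with
  | leaf i =>
    intro Wp _ _ _ _ _ G _ _ x
    simp only [pathCost_leaf, mul_zero, fib_const]
    exact bot_le
  | node W a c T ih =>
    intro Wp h01 hbθ hT hA hD G hG hGi x
    have hT' := hT
    have hA' := hA
    obtain ⟨ha, haW, hc, hcW, hab, hg⟩ := hT
    obtain ⟨hlt, hcap, hcls, hAk⟩ := hA
    obtain ⟨hθW, hDk⟩ := hD
    have h0W : W0 ≤ W := h01.trans hlt.le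
    have hkk : kk W0 Wp + 1 ≤ kk W0 W := by
      unfold kk
      have a1 := Submodule.finrank_lt_finrank_of_lt hlt
      have a2 := Submodule.finrank_mono h01
      omega
    have hkk1 : 1 ≤ kk W0 W := by omega
    have mG : Measurable (G.indicator (1 : E → ℝ≥0∞)) := measurable_one.indicator hG
    have mvw : ∀ V, Measurable (vw P W0 V) := fun V => measurable_vw P W0 V
    set Rr : ℝ := 2 ^ (kk W0 W + 1) with hRr
    set d := W.starProjection b - Wp.starProjection b with hd
    set g := b - W.starProjection b with hgd
    set h1 := sx L (fun z => Rr * tb z) d with hh1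
    set h2 := sx L (fun z => Rr * tb z) g with hh2
    have mh1 : Measurable h1 := measurable_sx hLm (R.mt.const_mul _) d
    have mh2 : Measurable h2 := measurable_sx hLm (R.mt.const_mul _) g
    -- splitting of the displacement
    have hsplit : ∀ y, sx L (fun z => 2 ^ (kk W0 Wp + 1) * tb z) (b - Wp.starProjection b) y
        ≤ h1 y + h2 y := by
      intro y
      have e1 : b - Wp.starProjection b = d + g := by rw [hd, hgd]; abel
      refine (sx_split hL e1 (2 ^ (kk W0 Wp + 1)) y).trans ?_
      have h2r : (2:ℝ) * 2 ^ (kk W0 Wp + 1) ≤ Rr := by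
        rw [hRr, ← pow_succ']
        exact pow_le_pow_right₀ (by norm_num) (by omega)
      exact add_le_add (sx_mono hL (by positivity) h2r y) (sx_mono hL (by positivity) h2r y)
    have hpath : ∀ y, pathCost (Lᶜ.indicator 1)
        (sx L (fun z => 2 ^ (kk W0 Wp + 1) * tb z) (b - Wp.starProjection b)) (node W a c T) y
        ≤ pathCost (Lᶜ.indicator 1) h1 (node W a c T) y
          + pathCost (Lᶜ.indicator 1) h2 (node W a c T) y := fun y =>
      (pathCost_mono _ _ hsplit y).trans (pathCost_add _ _ mh1 y)
    set I := fib W0 (fun y => G.indicator 1 y * vw P W0 Wp y) x with hI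
    set KX := KK P φ q Mf x with hKX
    have hGinvW : InvS W G := fun z w hw => hGi z w (Submodule.orthogonal_le hlt.le hw)
    -- bound of the displacement on `L`
    have htb : ∀ V, W ≤ V → ∀ z ∈ L, |Rr * tb z| ≤ lamB W0 θ φ V z := by
      intro V hWV z hz
      unfold lamB
      rw [abs_mul, abs_of_nonneg (by positivity : (0:ℝ) ≤ Rr)]
      have h3 := R.le z hz
      have hkV : kk W0 W ≤ kk W0 V := by
        unfold kk
        have := Submodule.finrank_mono hWV
        omega
      have h4 : Rr ≤ 2 ^ (kk W0 V + 1) := pow_le_pow_right₀ (by norm_num) (by omega)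
      calc Rr * |tb z| ≤ 2 ^ (kk W0 V + 1) * (φ * (1 + |⟪z, θ⟫|)) := by gcongr
        _ = _ := by ring
    -- the weight `vw` between `Wp` and `W`
    have hvw : fib W0 (fun y => G.indicator 1 y * vw P W0 W y) x ≤ β * I := by
      have m1 : Measurable fun y => G.indicator 1 y * vw P W0 W y := mG.mul (mvw W)
      have hGI : Inv Wp (G.indicator (1 : E → ℝ≥0∞)) := by
        intro z w hw
        by_cases hz : z ∈ G
        · rw [indicator_of_mem hz, indicator_of_mem ((hGi z w hw).mpr hz)]; rfl
        · rw [indicator_of_notMem hz, indicator_of_notMem fun h => hz ((hGi z w hw).mp h)]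
      rw [← fib_tower h01 m1]
      have e1 : ∀ y, fib Wp (fun y => G.indicator 1 y * vw P W0 W y) y
          ≤ β * (G.indicator 1 y * vw P W0 Wp y) := by
        intro y
        rw [fib_mul hGI (mvw W)]
        calc G.indicator 1 y * fib Wp (vw P W0 W) y ≤ G.indicator 1 y * (β * vw P W0 Wp y) := by
              gcongr
              exact fib_vw hβ h01 hlt y
          _ = _ := by ring
      refine (fib_mono e1 x).trans (le_of_eq ?_)
      exact fib_mul (inv_const W0 β) (mG.mul (mvw Wp)) x
    -- (1) the moves in direction `d`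
    have part1 : fib W0 (fun y => G.indicator 1 y
        * pathCost (Lᶜ.indicator 1) h1 (node W a c T) y) x ≤ 4 * YU P * (β * KX * I) := by
      by_cases hd0 : d = 0
      · have e0 : h1 = fun _ => 0 := by rw [hh1, hd0, sx_zero]
        rw [e0]
        simp_rw [pathCost_zero, mul_zero]
        rw [fib_const]
        exact bot_le
      set s := ‖d‖ with hs
      have hs0 : 0 < s := norm_pos_iff.mpr hd0
      set e := s⁻¹ • d with he
      have he1 : ‖e‖ = 1 := by
        rw [he, norm_smul, norm_inv, Real.norm_of_nonneg hs0.le, ← hs, inv_mul_cancel₀ hs0.ne']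
      have hde : d = s • e := by rw [he, smul_smul, mul_inv_cancel₀ hs0.ne', one_smul]
      have hs1 : s ≤ 1 := by
        have h3 := NN_nonneg W0 Wp b
        have h4 : ‖d‖ ^ 2 ≤ ‖b‖ ^ 2 := by
          have e2 : ‖b‖ ^ 2 = ‖Wp.starProjection b‖ ^ 2 + ‖d‖ ^ 2 + ‖g‖ ^ 2 := by
            have o1 : ⟪Wp.starProjection b + d, g⟫ = 0 := by
              have : Wp.starProjection b + d = W.starProjection b := by rw [hd]; abel
              rw [this]
              exact (Submodule.mem_orthogonal W g).mp
                (Submodule.sub_starProjection_mem_orthogonal b) _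
                (Submodule.starProjection_apply_mem W b)
            have o2 : ⟪Wp.starProjection b, d⟫ = 0 :=
              (Submodule.mem_orthogonal Wp d).mp (diff_mem_orth hlt.le b) _
                (Submodule.starProjection_apply_mem Wp b)
            have e3 : b = (Wp.starProjection b + d) + g := by rw [hd, hgd]; abel
            have q1 := norm_add_sq_eq_norm_sq_add_norm_sq_of_inner_eq_zero _ _ o1
            have q2 := norm_add_sq_eq_norm_sq_add_norm_sq_of_inner_eq_zero _ _ o2
            rw [← e3] at q1
            nlinarith [q1, q2]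
          have := sq_nonneg ‖Wp.starProjection b‖
          have := sq_nonneg ‖g‖
          linarith
        rw [hb] at h4
        rw [hs]
        exact abs_le_of_sq_le_sq' (by linarith) (by norm_num) |>.2
      have hdW : d ∈ W := Submodule.sub_mem _ (Submodule.starProjection_apply_mem W b)
        (hlt.le (Submodule.starProjection_apply_mem Wp b))
      have hdp : d ∈ Wpᗮ := diff_mem_orth hlt.le b
      have heW : e ∈ W := Submodule.smul_mem _ _ hdW
      have hep : e ∈ Wpᗮ := Submodule.smul_mem _ _ hdp
      have he0 : e ∈ W0ᗮ := Submodule.orthogonal_le h01 hep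
      have hθd : ⟪θ, d⟫ = 0 := by
        rw [hd, inner_sub_right, ← Submodule.inner_starProjection_left_eq_right,
          ← Submodule.inner_starProjection_left_eq_right,
          Submodule.starProjection_eq_self_iff.mpr hθW, R.hθb, real_inner_comm, hbθ, sub_zero]
      have hθe : ⟪θ, e⟫ = 0 := by rw [he, inner_smul_right, hθd, mul_zero]
      have hallW : AllW (fun V => W ≤ V) (node W a c T) :=
        ⟨le_rfl, fun k => (hAk k).allW.mono fun V hV => hV.le⟩
      have hallθ : AllW (fun V => θ ∈ V) (node W a c T) := ⟨hθW, hDk⟩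
      have hle : AllW (fun V => ∀ z ∈ L, |Rr * tb z| ≤ lamB W0 θ φ V z) (node W a c T) :=
        hallW.mono fun V hV => htb V hV
      have hdir : ∀ e' : E, e' ∈ W → ⟪θ, e'⟫ = 0 →
          AllW (fun V => DirOK W0 φ e' V (lamB W0 θ φ V)) (node W a c T) := fun e' he' hθe' =>
        (hallW.and hallθ).mono fun V hV => dirOK_B hφ hθ R.hθ0 hV.2 (hV.1 he') hθe'
      have hc1 := fun y => pathCost_le_dir hL hLm mlB hde hs0.le hs1 (node W a c T) hle y
      have mdir : ∀ e', Measurable (dirCost L (lamB W0 θ φ) e' (node W a c T)) := fun e' =>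
        measurable_dirCost hT' hLm mlB e'
      have dsum : ∀ e' : E, ‖e'‖ = 1 → e' ∈ W → e' ∈ Wpᗮ → ⟪θ, e'⟫ = 0 →
          fib W0 (fun y => G.indicator 1 y * dirCost L (lamB W0 θ φ) e' (node W a c T) y) x
            ≤ 2 * YU P * (β * KX * I) := by
        intro e' he' he'W he'p hθe'
        have he'0 : e' ∈ W0ᗮ := Submodule.orthogonal_le h01 he'p
        have hds := dir_sum hβ hφ hM1 hqW hMW hqm hMm hL hLm mlB he' he'0 (node W a c T) Wp h01
          (Or.inr he'p) hT' hA' (hdir e' he'W hθe') G hG hGi x
        refine hds.trans (le_of_eq ?_)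
        have e5 : (fun y => ww P W0 Wp e' y * YG (1 / 2 - P.p') e' G y)
            = fun y => YU P * (G.indicator 1 y * vw P W0 Wp y) := by
          funext y
          rw [ww_eq_vw he'0 he'p, YG_perp he'p hGi]
          unfold YU
          ring
        have e6 : fib W0 (fun y => YU P * (G.indicator 1 y * vw P W0 Wp y)) x = YU P * I :=
          fib_mul (inv_const W0 (YU P)) (mG.mul (mvw Wp)) x
        rw [e5, e6]
        ring
      calc fib W0 (fun y => G.indicator 1 y
            * pathCost (Lᶜ.indicator 1) h1 (node W a c T) y) x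
          ≤ fib W0 (fun y => G.indicator 1 y * dirCost L (lamB W0 θ φ) e (node W a c T) y
            + G.indicator 1 y * dirCost L (lamB W0 θ φ) (-e) (node W a c T) y) x := by
            apply fib_mono
            intro y
            rw [← mul_add]
            gcongr
            exact hc1 y
        _ = fib W0 (fun y => G.indicator 1 y * dirCost L (lamB W0 θ φ) e (node W a c T) y) x
            + fib W0 (fun y => G.indicator 1 y
              * dirCost L (lamB W0 θ φ) (-e) (node W a c T) y) x :=
            fib_add (mG.mul (mdir e)) x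
        _ ≤ 2 * YU P * (β * KX * I) + 2 * YU P * (β * KX * I) :=
            add_le_add (dsum e he1 heW hep hθe)
              (dsum (-e) (by rw [norm_neg, he1]) (Submodule.neg_mem _ heW)
                (Submodule.neg_mem _ hep) (by rw [inner_neg_right, hθe, neg_zero]))
        _ = _ := by ring
    -- (2) the fibre move at the node
    have part2 : fib W0 (fun y => G.indicator 1 y
        * nodeCost W a (Lᶜ.indicator 1) h2 y) x
          ≤ 2 * ENNReal.ofReal (Real.exp 11) * (β * KX * I) := by
      by_cases hg0 : g = 0
      · have e0 : h2 = fun _ => 0 := by rw [hh2, hg0, sx_zero]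
        rw [e0]
        simp_rw [nodeCost_zero, mul_zero]
        rw [fib_const]
        exact bot_le
      set s := ‖g‖ with hs
      have hs0 : 0 < s := norm_pos_iff.mpr hg0
      set e := s⁻¹ • g with he
      have he1 : ‖e‖ = 1 := by
        rw [he, norm_smul, norm_inv, Real.norm_of_nonneg hs0.le, ← hs, inv_mul_cancel₀ hs0.ne']
      have hge : g = s • e := by rw [he, smul_smul, mul_inv_cancel₀ hs0.ne', one_smul]
      have hgW : g ∈ Wᗮ := Submodule.sub_starProjection_mem_orthogonal b
      have heW : e ∈ Wᗮ := Submodule.smul_mem _ _ hgW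
      have hs1 : s ≤ 1 := by
        have o1 : ⟪W.starProjection b, g⟫ = 0 :=
          (Submodule.mem_orthogonal W g).mp hgW _ (Submodule.starProjection_apply_mem W b)
        have q1 := norm_add_sq_eq_norm_sq_add_norm_sq_of_inner_eq_zero _ _ o1
        have e3 : W.starProjection b + g = b := by rw [hgd]; abel
        rw [e3, hb] at q1
        rw [hs]
        nlinarith [norm_nonneg g, norm_nonneg (W.starProjection b)]
      have hnode : ∀ y, nodeCost W a (Lᶜ.indicator 1) h2 y
          ≤ 2 * ENNReal.ofReal (Real.exp 11) * (KK P φ q Mf y * vw P W0 W y) := by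
        intro y
        have a1 := node_fib hφ hkk1 hM1 hcap hθ R.hθ0 hθW he1 heW hL hLm y
        have a2 := node_fib hφ hkk1 hM1 hcap hθ R.hθ0 hθW (e := -e) (by rw [norm_neg, he1])
          (Submodule.neg_mem _ heW) hL hLm y
        calc nodeCost W a (Lᶜ.indicator 1) h2 y
            ≤ nodeCost W a (Lᶜ.indicator 1) (exitI L (lamB W0 θ φ W) e) y
              + nodeCost W a (Lᶜ.indicator 1) (exitI L (lamB W0 θ φ W) (-e)) y :=
              (nodeCost_mono (fun z => sx_le hL hge hs0.le hs1 (htb W le_rfl) z) y).trans
                (nodeCost_add (measurable_exitI hLm (mlB W) e) y)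
          _ ≤ _ := add_le_add a1 a2
          _ = _ := by ring
      calc fib W0 (fun y => G.indicator 1 y * nodeCost W a (Lᶜ.indicator 1) h2 y) x
          ≤ fib W0 (fun y => KK P φ q Mf y * (2 * ENNReal.ofReal (Real.exp 11)
            * (G.indicator 1 y * vw P W0 W y))) x := by
            apply fib_mono
            intro y
            calc G.indicator 1 y * nodeCost W a (Lᶜ.indicator 1) h2 y
                ≤ G.indicator 1 y * (2 * ENNReal.ofReal (Real.exp 11)
                  * (KK P φ q Mf y * vw P W0 W y)) := by
                  gcongr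
                  exact hnode y
              _ = _ := by ring
        _ = KX * (2 * ENNReal.ofReal (Real.exp 11)
            * fib W0 (fun y => G.indicator 1 y * vw P W0 W y) x) := by
            have e7 : fib W0 (fun y => KK P φ q Mf y * (2 * ENNReal.ofReal (Real.exp 11)
                * (G.indicator 1 y * vw P W0 W y))) x
                = KK P φ q Mf x * fib W0 (fun y => 2 * ENNReal.ofReal (Real.exp 11)
                * (G.indicator 1 y * vw P W0 W y)) x :=
              fib_mul hKi ((mG.mul (mvw W)).const_mul _) x
            have e8 : fib W0 (fun y => 2 * ENNReal.ofReal (Real.exp 11)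
                * (G.indicator 1 y * vw P W0 W y)) x = 2 * ENNReal.ofReal (Real.exp 11)
                * fib W0 (fun y => G.indicator 1 y * vw P W0 W y) x :=
              fib_mul (inv_const W0 _) (mG.mul (mvw W)) x
            rw [e7, e8]
        _ ≤ KX * (2 * ENNReal.ofReal (Real.exp 11) * (β * I)) := by gcongr
        _ = _ := by ring
    -- (3) the children
    have part3 : fib W0 (fun y => G.indicator 1 y
        * pathCost (Lᶜ.indicator 1) h2 (T (c y)) y) x
          ≤ kap P * β * (β * KX * I) := by
      have mpk : ∀ k, Measurable (pathCost (Lᶜ.indicator 1) h2 (T k)) := fun k =>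
        measurable_pathCost (hg k) mLc mh2
      have hGk : ∀ k, MeasurableSet (G ∩ {z | c z = k}) := fun k =>
        hG.inter (hc (measurableSet_singleton k))
      have e1 : (fun y => G.indicator 1 y * pathCost (Lᶜ.indicator 1) h2 (T (c y)) y)
          = fun y => ∑' k, (G ∩ {z | c z = k}).indicator (1 : E → ℝ≥0∞) y
            * pathCost (Lᶜ.indicator 1) h2 (T k) y := by
        funext y
        exact split_cls (fun k => pathCost (Lᶜ.indicator 1) h2 (T k)) y
      rw [e1, fib_tsum (F := fun k y => (G ∩ {z | c z = k}).indicator (1 : E → ℝ≥0∞) y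
            * pathCost (Lᶜ.indicator 1) h2 (T k) y)
            fun k => (measurable_one.indicator (hGk k)).mul (mpk k)]
      have hinv : ∀ k, InvS W (G ∩ {z | c z = k}) := by
        intro k z w hw
        have a1 := hGinvW z w hw
        have a2 := hcW z w hw
        simp only [mem_inter_iff, mem_setOf_eq, a1, a2]
      have hbθW : ⟪b, W.starProjection θ⟫ = 0 := by
        rw [Submodule.starProjection_eq_self_iff.mpr hθW, real_inner_comm]
        exact R.hθb
      have step : ∀ k, fib W0 (fun y => (G ∩ {z | c z = k}).indicator (1 : E → ℝ≥0∞) y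
            * pathCost (Lᶜ.indicator 1) h2 (T k) y) x
          ≤ kap P * β * KX
            * fib W0 (fun y => (G ∩ {z | c z = k}).indicator (1 : E → ℝ≥0∞) y
              * vw P W0 W y) x := fun k =>
        ih k W h0W hbθW (hg k) (hAk k) (hDk k) _ (hGk k) (hinv k) x
      refine (ENNReal.tsum_le_tsum step).trans ?_
      rw [ENNReal.tsum_mul_left, ← fib_tsum (F := fun k y =>
        (G ∩ {z | c z = k}).indicator (1 : E → ℝ≥0∞) y * vw P W0 W y)
          fun k => (measurable_one.indicator (hGk k)).mul (mvw W)]
      have e2 : (fun y => ∑' k, (G ∩ {z | c z = k}).indicator (1 : E → ℝ≥0∞) y * vw P W0 W y)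
          = fun y => G.indicator 1 y * vw P W0 W y := by
        funext y
        exact (split_cls (fun _ => vw P W0 W) y).symm
      rw [e2]
      calc kap P * β * KX * fib W0 (fun y => G.indicator 1 y * vw P W0 W y) x
          ≤ kap P * β * KX * (β * I) := by gcongr
        _ = _ := by ring
    -- total
    have m1 : Measurable fun y => G.indicator 1 y * pathCost (Lᶜ.indicator 1) h1 (node W a c T) y :=
      mG.mul (measurable_pathCost hT' mLc mh1)
    have m2 : Measurable fun y => G.indicator 1 y * nodeCost W a (Lᶜ.indicator 1) h2 y :=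
      mG.mul (measurable_nodeCost ha mLc mh2)
    calc fib W0 (fun y => G.indicator 1 y * pathCost (Lᶜ.indicator 1)
        (sx L (fun z => 2 ^ (kk W0 Wp + 1) * tb z) (b - Wp.starProjection b))
          (node W a c T) y) x
        ≤ fib W0 (fun y => G.indicator 1 y * pathCost (Lᶜ.indicator 1) h1 (node W a c T) y
          + (G.indicator 1 y * nodeCost W a (Lᶜ.indicator 1) h2 y
            + G.indicator 1 y * pathCost (Lᶜ.indicator 1) h2 (T (c y)) y)) x := by
          apply fib_mono
          intro y
          rw [← mul_add, ← mul_add]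
          gcongr
          exact hpath y
      _ = fib W0 (fun y => G.indicator 1 y * pathCost (Lᶜ.indicator 1) h1 (node W a c T) y) x
          + (fib W0 (fun y => G.indicator 1 y * nodeCost W a (Lᶜ.indicator 1) h2 y) x
            + fib W0 (fun y => G.indicator 1 y
              * pathCost (Lᶜ.indicator 1) h2 (T (c y)) y) x) := by
          rw [fib_add m1, fib_add m2]
      _ ≤ 4 * YU P * (β * KX * I) + (2 * ENNReal.ofReal (Real.exp 11) * (β * KX * I)
            + kap P * β * (β * KX * I)) := add_le_add part1 (add_le_add part2 part3)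
      _ ≤ kap P * (β * KX * I) := by
          have hk2 : 4 * YU P + 2 * ENNReal.ofReal (Real.exp 11) + kap P * β ≤ kap P := by
            have e6 : kap P * β = (4 * YU P + 2 * ENNReal.ofReal (Real.exp 11)) * (2 * β) := by
              unfold kap; ring
            rw [e6]
            calc _ ≤ 4 * YU P + 2 * ENNReal.ofReal (Real.exp 11)
                  + (4 * YU P + 2 * ENNReal.ofReal (Real.exp 11)) * 1 := by gcongr
              _ = kap P := by unfold kap; ring
          calc _ = (4 * YU P + 2 * ENNReal.ofReal (Real.exp 11) + kap P * β) * (β * KX * I) := by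
                ring
            _ ≤ _ := by gcongr
      _ = _ := by ring

end Vale.Agent.P262.H698
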