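import Vale.Agent.P262.H698.Sum
import Vale.Agent.P262.H118.Rot

/-!
# P262, block ROT, part 8: displacements of a rotation, the recursion over the tree
-/

set_option linter.all false

open MeasureTheory ProbabilityTheory Set Module
open scoped ENNReal RealInnerProductSpace

namespace Vale.Agent.P262.H698

open Vale.Agent.P262.H395 Vale.Agent.P262.H395.Tree

variable {E : Type*} [NormedAddCommGroup E] [InnerProductSpace ℝ E] [FiniteDimensional ℝ E]
  [MeasurableSpace E] [BorelSpace E] {ι : Type*}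

/-- exit with a signed displacement `t` in direction `d` -/
noncomputable def sx (L : Set E) (t : E → ℝ) (d : E) : E → ℝ≥0∞ :=
  {x | x ∈ L ∧ x + t x • d ∉ L}.indicator 1

lemma measurable_sx {L : Set E} (hL : MeasurableSet L) {t : E → ℝ} (ht : Measurable t)
    (d : E) : Measurable (sx L t d) :=
  measurable_one.indicator (measurableSet_exit hL ht d)

omit [FiniteDimensional ℝ E] [MeasurableSpace E] [BorelSpace E] in
/-- a signed move is one of the two moves `± e` with a larger displacement -/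
lemma sx_le {L : Set E} (hL : Convex ℝ L) {t lam : E → ℝ} {d e : E} {s : ℝ} (hde : d = s • e)
    (hs0 : 0 ≤ s) (hs1 : s ≤ 1) (hle : ∀ x ∈ L, |t x| ≤ lam x) (x : E) :
    sx L t d x ≤ exitI L lam e x + exitI L lam (-e) x := by
  unfold sx exitI
  by_cases hx : x ∈ {x | x ∈ L ∧ x + t x • d ∉ L}
  · rw [indicator_of_mem hx]
    obtain ⟨hxL, hxd⟩ := hx
    have h1 := hle x hxL
    have h2 : t x • d = (t x * s) • e := by rw [hde, smul_smul]
    rw [h2] at hxd
    rcases le_total 0 (t x) with h0 | h0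
    · have : x + lam x • e ∉ L := by
        apply exit_mono hL (l := t x * s) (by positivity) _ hxL hxd
        rw [abs_of_nonneg h0] at h1
        nlinarith
      rw [indicator_of_mem (show x ∈ {x | x ∈ L ∧ x + lam x • e ∉ L} from ⟨hxL, this⟩)]
      exact le_self_add
    · have : x + lam x • (-e) ∉ L := by
        have h3 : (t x * s) • e = ((-t x) * s) • (-e) := by
          rw [smul_neg, neg_mul, neg_smul, neg_neg]
        rw [h3] at hxd
        apply exit_mono hL (l := (-t x) * s) (mul_nonneg (by linarith) hs0) _ hxL hxd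
        rw [abs_of_nonpos h0] at h1
        nlinarith
      rw [indicator_of_mem (show x ∈ {x | x ∈ L ∧ x + lam x • (-e) ∉ L} from ⟨hxL, this⟩)]
      exact le_add_self
  · rw [indicator_of_notMem hx]
    exact bot_le

omit [FiniteDimensional ℝ E] [MeasurableSpace E] [BorelSpace E] in
/-- larger signed displacements exit more -/
lemma sx_mono {L : Set E} (hL : Convex ℝ L) {t : E → ℝ} {d : E} {r r' : ℝ} (hr : 0 ≤ r)
    (hrr : r ≤ r') (x : E) :
    sx L (fun y => r * t y) d x ≤ sx L (fun y => r' * t y) d x := by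
  unfold sx
  by_cases hx : x ∈ {x | x ∈ L ∧ x + (r * t x) • d ∉ L}
  · obtain ⟨hxL, hxd⟩ := hx
    have : x + (r' * t x) • d ∉ L := by
      have h1 : (r * t x) • d = r • (t x • d) := by rw [smul_smul]
      have h2 : (r' * t x) • d = r' • (t x • d) := by rw [smul_smul]
      rw [h1] at hxd
      rw [h2]
      exact exit_mono hL hr hrr hxL hxd
    rw [indicator_of_mem (show x ∈ {x | x ∈ L ∧ x + (r * t x) • d ∉ L} from ⟨hxL, hxd⟩),
      indicator_of_mem (show x ∈ {x | x ∈ L ∧ x + (r' * t x) • d ∉ L} from ⟨hxL, this⟩)]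
  · rw [indicator_of_notMem hx]
    exact bot_le

omit [FiniteDimensional ℝ E] [MeasurableSpace E] [BorelSpace E] in
/-- **convexity trick**: splitting a displacement in two with factor two -/
lemma sx_split {L : Set E} (hL : Convex ℝ L) {t : E → ℝ} {d d1 d2 : E} (hd : d = d1 + d2)
    (r : ℝ) (x : E) :
    sx L (fun y => r * t y) d x
      ≤ sx L (fun y => 2 * r * t y) d1 x + sx L (fun y => 2 * r * t y) d2 x := by
  unfold sx
  by_cases hx : x ∈ {x | x ∈ L ∧ x + (r * t x) • d ∉ L}
  · obtain ⟨hxL, hxd⟩ := hx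
    have : x + (2 * r * t x) • d1 ∉ L ∨ x + (2 * r * t x) • d2 ∉ L := by
      by_contra hcon
      push Not at hcon
      apply hxd
      have h := hL hcon.1 hcon.2 (a := 1 / 2) (b := 1 / 2) (by norm_num) (by norm_num) (by norm_num)
      have e1 : (1 / 2 : ℝ) • (x + (2 * r * t x) • d1) + (1 / 2 : ℝ) • (x + (2 * r * t x) • d2)
          = x + (r * t x) • d := by
        rw [hd]
        module
      rwa [e1] at h
    rw [indicator_of_mem (show x ∈ {x | x ∈ L ∧ x + (r * t x) • d ∉ L} from ⟨hxL, hxd⟩)]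
    rcases this with h | h
    · rw [indicator_of_mem (show x ∈ {x | x ∈ L ∧ x + (2 * r * t x) • d1 ∉ L} from ⟨hxL, h⟩)]
      exact le_self_add
    · rw [indicator_of_mem (show x ∈ {x | x ∈ L ∧ x + (2 * r * t x) • d2 ∉ L} from ⟨hxL, h⟩)]
      exact le_add_self
  · rw [indicator_of_notMem hx]
    exact bot_le

/-! ### path costs -/

lemma pathCost_node' (f h : E → ℝ≥0∞) (W : Submodule ℝ E) (a : E → ℝ≥0∞) (c : E → ℕ)
    (T : ℕ → Tree E ι) (x : E) : pathCost f h (node W a c T) x
      = nodeCost W a f h x + pathCost f h (T (c x)) x := rfl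

lemma measurable_pathCost {T : Tree E ι} (hT : Good T) {f h : E → ℝ≥0∞} (hf : Measurable f)
    (hh : Measurable h) : Measurable (pathCost f h T) := by
  induction T with
  | leaf i => exact measurable_const
  | node W a c T ih =>
    obtain ⟨ha, haW, hc, hcW, hab, hg⟩ := hT
    exact (measurable_nodeCost ha hf hh).add
      (measurable_sel (F := fun k => pathCost f h (T k)) (fun k => ih k (hg k)) hc)

lemma pathCost_mono (T : Tree E ι) (f : E → ℝ≥0∞) {h h' : E → ℝ≥0∞} (hh : ∀ x, h x ≤ h' x)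
    (x : E) : pathCost f h T x ≤ pathCost f h' T x := by
  induction T generalizing x with
  | leaf i => exact le_rfl
  | node W a c T ih =>
    rw [pathCost_node', pathCost_node']
    exact add_le_add (nodeCost_mono hh x) (ih (c x) x)

lemma pathCost_add (T : Tree E ι) (f : E → ℝ≥0∞) {h h' : E → ℝ≥0∞} (hh : Measurable h)
    (x : E) : pathCost f (fun y => h y + h' y) T x ≤ pathCost f h T x + pathCost f h' T x := by
  induction T generalizing x with
  | leaf i => simp
  | node W a c T ih =>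
    rw [pathCost_node', pathCost_node', pathCost_node']
    refine (add_le_add (nodeCost_add hh x) (ih (c x) x)).trans (le_of_eq ?_)
    ring

/-- comparison of a path cost with the two direction costs -/
lemma pathCost_le_dir {L : Set E} (hL : Convex ℝ L) (hLm : MeasurableSet L)
    {lam : Submodule ℝ E → E → ℝ} (hlam : ∀ W, Measurable (lam W)) {t : E → ℝ} {d e : E} {s : ℝ}
    (hde : d = s • e) (hs0 : 0 ≤ s) (hs1 : s ≤ 1) (T : Tree E ι)
    (hle : AllW (fun W => ∀ x ∈ L, |t x| ≤ lam W x) T) (x : E) :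
    pathCost (Lᶜ.indicator 1) (sx L t d) T x
      ≤ dirCost L lam e T x + dirCost L lam (-e) T x := by
  induction T generalizing x with
  | leaf i => simp
  | node W a c T ih =>
    rw [pathCost_node', dirCost_node, dirCost_node]
    have h1 : nodeCost W a (Lᶜ.indicator 1) (sx L t d) x
        ≤ nodeCost W a (Lᶜ.indicator 1) (exitI L (lam W) e) x
          + nodeCost W a (Lᶜ.indicator 1) (exitI L (lam W) (-e)) x :=
      (nodeCost_mono (fun y => sx_le hL hde hs0 hs1 hle.1 y) x).trans
        (nodeCost_add (measurable_exitI hLm (hlam W) e) x)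
    have h2 := ih (c x) (hle.2 (c x)) x
    calc _ ≤ (nodeCost W a (Lᶜ.indicator 1) (exitI L (lam W) e) x
          + nodeCost W a (Lᶜ.indicator 1) (exitI L (lam W) (-e)) x)
          + (dirCost L lam e (T (c x)) x + dirCost L lam (-e) (T (c x)) x) := add_le_add h1 h2
      _ = _ := by ring

/-- the weight of a label, no direction removed -/
noncomputable def vw (P : Prm) (W0 W : Submodule ℝ E) (y : E) : ℝ≥0∞ :=
  ENNReal.ofReal (4 * Real.exp (-P.Lam)) ^ kk W0 W
    * ENNReal.ofReal (Real.exp (P.p' * NN W0 W y))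

lemma measurable_vw (P : Prm) (W0 W : Submodule ℝ E) : Measurable (vw P W0 W) :=
  (ENNReal.measurable_ofReal.comp (Real.measurable_exp.comp
    ((measurable_NN W0 W).const_mul _))).const_mul _

lemma ww_eq_vw {P : Prm} {W0 W : Submodule ℝ E} {e : E} (he0 : e ∈ W0ᗮ) (heW : e ∈ Wᗮ) (y : E) :
    ww P W0 W e y = vw P W0 W y := by
  unfold ww vw gw
  have p1 : W.starProjection e = 0 := proj_eq_zero heW
  have p2 : W0.starProjection e = 0 := proj_eq_zero he0
  have : NN W0 W (lin e y 0) = NN W0 W y := by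
    unfold NN lin
    simp only [map_add, map_sub, map_smul, p1, p2, smul_zero, sub_zero, add_zero]
  rw [this]

lemma fib_vw {P : Prm} {β : ℝ≥0∞} (hβ : Small P β) {W0 Wp W : Submodule ℝ E} (h01 : W0 ≤ Wp)
    (h1 : Wp < W) (y : E) : fib Wp (vw P W0 W) y ≤ β * vw P W0 Wp y := by
  have hp0 : 0 ≤ P.p' := P.p_nonneg.trans P.lt1.le
  have hd : 1 ≤ finrank ℝ W - finrank ℝ Wp := by
    have := Submodule.finrank_lt_finrank_of_lt h1
    omega
  have hkk : kk W0 W = kk W0 Wp + (finrank ℝ W - finrank ℝ Wp) := by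
    unfold kk
    have a1 := Submodule.finrank_mono h01
    have a2 := Submodule.finrank_mono h1.le
    omega
  have mN : Measurable fun y : E => ENNReal.ofReal (Real.exp (P.p' * NN W0 W y)) :=
    ENNReal.measurable_ofReal.comp (Real.measurable_exp.comp ((measurable_NN W0 W).const_mul _))
  have mN1 : Measurable fun y : E => ENNReal.ofReal (Real.exp (P.p' * NN Wp W y)) :=
    ENNReal.measurable_ofReal.comp (Real.measurable_exp.comp ((measurable_NN Wp W).const_mul _))
  set c := ENNReal.ofReal (4 * Real.exp (-P.Lam)) with hc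
  set d := finrank ℝ W - finrank ℝ Wp with hdd
  have e1 : fib Wp (vw P W0 W) y
      = c ^ kk W0 W * fib Wp (fun y => ENNReal.ofReal (Real.exp (P.p' * NN W0 W y))) y := by
    unfold vw
    exact fib_mul (inv_const Wp _) mN y
  have e2 : fib Wp (fun y => ENNReal.ofReal (Real.exp (P.p' * NN W0 W y))) y
      = ENNReal.ofReal (Real.exp (P.p' * NN W0 Wp y)) * Bf P.p' ^ d := by
    rw [← exp_NN P.lt2 W _ Wp h1.le rfl, ← lintegral_const_mul _ mN1]
    unfold fib
    apply lintegral_congr
    intro z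
    show ENNReal.ofReal (Real.exp (P.p' * NN W0 W (mix Wp y z))) = _
    rw [NN_mix h01 h1.le, ← ENNReal.ofReal_mul (Real.exp_nonneg _), ← Real.exp_add, mul_add]
  rw [e1, e2, hkk, pow_add]
  calc c ^ kk W0 Wp * c ^ d * (ENNReal.ofReal (Real.exp (P.p' * NN W0 Wp y)) * Bf P.p' ^ d)
      = (c * Bf P.p') ^ d * (c ^ kk W0 Wp * ENNReal.ofReal (Real.exp (P.p' * NN W0 Wp y))) := by
        rw [mul_pow]; ring
    _ ≤ β * (c ^ kk W0 Wp * ENNReal.ofReal (Real.exp (P.p' * NN W0 Wp y))) := by
        gcongr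
        calc (c * Bf P.p') ^ d ≤ β ^ d := by gcongr; exact hβ.fac
          _ ≤ β ^ 1 := pow_le_pow_right_of_le_one' hβ.le_one hd
          _ = β := pow_one β
    _ = β * vw P W0 Wp y := rfl

/-- the data of a small rotation -/
structure RotData (W0 : Submodule ℝ E) (θ b : E) (φ : ℝ) (L : Set E) (tb : E → ℝ) : Prop where
  hθ : ‖θ‖ = 1
  hb : ‖b‖ = 1
  hθb : ⟪θ, b⟫ = 0
  hθ0 : θ ∈ W0ᗮ
  hb0 : b ∈ W0ᗮ
  hφ : 0 ≤ φ
  conv : Convex ℝ L
  meas : MeasurableSet L
  mt : Measurable tb
  le : ∀ x ∈ L, |tb x| ≤ φ * (1 + |⟪x, θ⟫|)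

/-- displacement bound for moves in the components of `b` -/
noncomputable def lamB (W0 : Submodule ℝ E) (θ : E) (φ : ℝ) (W : Submodule ℝ E) (x : E) : ℝ :=
  2 ^ (kk W0 W + 1) * φ * (1 + |⟪x, θ⟫|)

lemma measurable_lamB (W0 : Submodule ℝ E) (θ : E) (φ : ℝ) (W : Submodule ℝ E) :
    Measurable (lamB W0 θ φ W) := by
  unfold lamB
  fun_prop

lemma lamB_nonneg {W0 : Submodule ℝ E} {θ : E} {φ : ℝ} (hφ : 0 ≤ φ) (W : Submodule ℝ E) (x : E) :
    0 ≤ lamB W0 θ φ W x := by
  unfold lamB
  positivity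

lemma dirOK_B {W0 : Submodule ℝ E} {θ : E} {φ : ℝ} (hφ : 0 ≤ φ) (hθ : ‖θ‖ = 1) (hθ0 : θ ∈ W0ᗮ)
    {W : Submodule ℝ E} (hθW : θ ∈ W) {e : E} (heW : e ∈ W) (heθ : ⟪θ, e⟫ = 0) :
    DirOK W0 φ e W (lamB W0 θ φ W) where
  mem := heW
  nonneg := lamB_nonneg hφ W
  along := by
    intro x u
    unfold lamB
    have : ⟪lin e x u, θ⟫ = ⟪x, θ⟫ := by
      unfold lin
      rw [inner_add_left, inner_sub_left, inner_smul_left, inner_smul_left]
      rw [real_inner_comm] at heθ
      rw [heθ]
      simp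
    rw [this]
  bound := by
    refine ⟨θ, hθW, hθ0, hθ.le, heθ, θ, hθ, ?_⟩
    intro y z
    unfold lamB
    have h1 : ⟪mix W y z, θ⟫ = ⟪y, θ⟫ := by
      unfold mix
      rw [inner_add_left, inner_sub_left, Submodule.inner_starProjection_left_eq_right,
        Submodule.inner_starProjection_left_eq_right,
        Submodule.starProjection_eq_self_iff.mpr hθW, sub_self, add_zero]
    rw [h1]
    have h2 : 0 ≤ |⟪z, θ⟫| := abs_nonneg _
    have h3 : 0 ≤ 2 ^ (kk W0 W + 1) * φ := by positivity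
    nlinarith

/-- **fibre move at one node** -/
theorem node_fib {P : Prm} {W0 W : Submodule ℝ E} {φ : ℝ} (hφ : 0 ≤ φ)
    (hk : 1 ≤ kk W0 W) {q : E → ℝ≥0∞} {Mf : E → ℝ} (hM1 : ∀ y, 1 ≤ Mf y)
    {a : E → ℝ≥0∞} (hcap : CapOK P W0 q Mf W a)
    {θ e : E} (hθ : ‖θ‖ = 1) (hθ0 : θ ∈ W0ᗮ) (hθW : θ ∈ W) (he : ‖e‖ = 1) (heW : e ∈ Wᗮ)
    {L : Set E} (hL : Convex ℝ L) (hLm : MeasurableSet L) (y : E) :
    nodeCost W a (Lᶜ.indicator 1) (exitI L (lamB W0 θ φ W) e) y
      ≤ ENNReal.ofReal (Real.exp 11) * (KK P φ q Mf y * vw P W0 W y) := by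
  set k := kk W0 W with hkdef
  set l := lamB W0 θ φ W y with hl
  have hl0 : 0 ≤ l := lamB_nonneg hφ W y
  have h2k : (2:ℝ) ≤ 2 ^ k := by
    calc (2:ℝ) = 2 ^ 1 := by norm_num
      _ ≤ 2 ^ k := pow_le_pow_right₀ (by norm_num) hk
  have hMf := hM1 y
  set M := Mf y * 2 ^ k with hM
  have hM2 : 2 ≤ M := by rw [hM]; nlinarith
  have hθc : ∀ z, lamB W0 θ φ W (mix W y z) = l := by
    intro z
    rw [hl]
    unfold lamB
    have h1 : ⟪mix W y z, θ⟫ = ⟪y, θ⟫ := by
      unfold mix
      rw [inner_add_left, inner_sub_left, Submodule.inner_starProjection_left_eq_right,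
        Submodule.inner_starProjection_left_eq_right,
        Submodule.starProjection_eq_self_iff.mpr hθW, sub_self, add_zero]
    rw [h1]
  have hfib : fib W (exitI L (lamB W0 θ φ W) e) y = fib W (exitI L (fun _ => l) e) y := by
    unfold fib
    apply lintegral_congr
    intro z
    unfold exitI
    have hiff : mix W y z ∈ {x | x ∈ L ∧ x + lamB W0 θ φ W x • e ∉ L}
        ↔ mix W y z ∈ {x | x ∈ L ∧ x + (fun _ : E => l) x • e ∉ L} := by
      simp only [mem_setOf_eq, hθc]
    by_cases hz : mix W y z ∈ {x | x ∈ L ∧ x + (fun _ : E => l) x • e ∉ L}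
    · rw [indicator_of_mem (hiff.mpr hz), indicator_of_mem hz]
    · rw [indicator_of_notMem (fun h => hz (hiff.mp h)), indicator_of_notMem hz]
  set c2 := l * (Real.exp 11 * M + 1) with hc2
  have hc2n : 0 ≤ c2 := by positivity
  have hcap1 : nodeCost W a (Lᶜ.indicator 1) (exitI L (lamB W0 θ φ W) e) y
      ≤ ENNReal.ofReal c2 * a y := by
    unfold nodeCost
    split_ifs with hD
    · rcases le_or_gt (l * M) 1 with h | h
      · refine (min_le_right _ _).trans ?_
        rw [hfib]
        refine (fibre_move he heW hL hLm (by linarith : (1:ℝ) ≤ M) hl0 h y).trans ?_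
        have h3 : ENNReal.ofReal (Real.exp (-(M ^ 2) / 2)) ≤ a y := hcap.lower y
        calc ENNReal.ofReal l * (ENNReal.ofReal (Real.exp 11 * M) * fib W (Lᶜ.indicator 1) y
              + ENNReal.ofReal (Real.exp (-M ^ 2 / 2)))
            ≤ ENNReal.ofReal l * (ENNReal.ofReal (Real.exp 11 * M) * a y + a y) := by gcongr
          _ = ENNReal.ofReal l * (ENNReal.ofReal (Real.exp 11 * M) + ENNReal.ofReal 1) * a y := by
              rw [ENNReal.ofReal_one]; ring
          _ = ENNReal.ofReal c2 * a y := by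
              rw [← ENNReal.ofReal_add (by positivity) (by norm_num), ← ENNReal.ofReal_mul hl0]
      · refine (min_le_left _ _).trans ?_
        have h4 : 1 ≤ c2 := by
          rw [hc2]
          have h5 : (1:ℝ) ≤ Real.exp 11 := Real.one_le_exp (by norm_num)
          have h6 : l * M ≤ l * (Real.exp 11 * M + 1) := by
            apply mul_le_mul_of_nonneg_left _ hl0
            nlinarith
          linarith
        calc a y = 1 * a y := (one_mul _).symm
          _ ≤ ENNReal.ofReal c2 * a y := by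
              gcongr
              rw [ENNReal.one_le_ofReal]
              exact h4
    · exact bot_le
  have hcu := hcap.upper y
  set N := NN W0 W y with hN
  have hN0 : 0 ≤ N := NN_nonneg _ _ _
  have ht2 : |⟪y, θ⟫| ^ 2 ≤ N := by
    rw [sq_abs, hN, NN_lin_le hθ hθW hθ0 y]
    have := NN_nonneg W0 W (lin θ y 0)
    linarith
  have hδ : 0 < P.p' - P.p := sub_pos.mpr P.lt1
  have hδ1 : P.p' - P.p ≤ 1 := by
    have := P.lt2
    have := P.p_nonneg
    linarith
  have hfin : c2 * Real.exp (P.p * N - P.Lam * k)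
      ≤ Real.exp 11 * ((16 * φ * (1 + 1 / (P.p' - P.p)) * Mf y)
        * ((4 * Real.exp (-P.Lam)) ^ k * Real.exp (P.p' * N))) := by
    have h2 := one_add_le hδ hδ1 (abs_nonneg ⟪y, θ⟫)
    have h3 : Real.exp ((P.p' - P.p) * |⟪y, θ⟫| ^ 2) ≤ Real.exp ((P.p' - P.p) * N) := by
      apply Real.exp_le_exp.mpr
      exact mul_le_mul_of_nonneg_left ht2 hδ.le
    have h4 : 1 + |⟪y, θ⟫| ≤ (1 + 1 / (P.p' - P.p)) * Real.exp ((P.p' - P.p) * N) :=
      h2.trans (mul_le_mul_of_nonneg_left h3 (by positivity))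
    have h5 : Real.exp 11 * M + 1 ≤ Real.exp 11 * (2 * M) := by
      have h6 : (1:ℝ) ≤ Real.exp 11 := Real.one_le_exp (by norm_num)
      nlinarith
    have h7 : c2 ≤ (2 ^ (k + 1) * φ * ((1 + 1 / (P.p' - P.p)) * Real.exp ((P.p' - P.p) * N)))
        * (Real.exp 11 * (2 * M)) := by
      rw [hc2, hl]
      unfold lamB
      rw [← hkdef]
      gcongr
    calc c2 * Real.exp (P.p * N - P.Lam * k)
        ≤ (2 ^ (k + 1) * φ * ((1 + 1 / (P.p' - P.p)) * Real.exp ((P.p' - P.p) * N)))
        * (Real.exp 11 * (2 * M)) * Real.exp (P.p * N - P.Lam * k) := by gcongr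
      _ = Real.exp 11 * ((4 * φ * (1 + 1 / (P.p' - P.p)) * Mf y)
          * ((2 ^ k * 2 ^ k) * (Real.exp ((P.p' - P.p) * N)
            * Real.exp (P.p * N - P.Lam * k)))) := by
          rw [hM]; ring
      _ ≤ Real.exp 11 * ((16 * φ * (1 + 1 / (P.p' - P.p)) * Mf y)
          * ((2 ^ k * 2 ^ k) * (Real.exp ((P.p' - P.p) * N)
            * Real.exp (P.p * N - P.Lam * k)))) := by
          gcongr
          norm_num
      _ = _ := by
          have e5 : Real.exp ((P.p' - P.p) * N) * Real.exp (P.p * N - P.Lam * k)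
              = Real.exp (-P.Lam) ^ k * Real.exp (P.p' * N) := by
            rw [← Real.exp_nat_mul, ← Real.exp_add, ← Real.exp_add]
            congr 1
            ring
          have e6 : (2:ℝ) ^ k * 2 ^ k = 4 ^ k := by
            rw [← mul_pow]; norm_num
          rw [e5, e6, mul_pow]
          ring
  calc nodeCost W a (Lᶜ.indicator 1) (exitI L (lamB W0 θ φ W) e) y
      ≤ ENNReal.ofReal c2 * a y := hcap1
    _ ≤ ENNReal.ofReal c2 * (q y * ENNReal.ofReal (Real.exp (P.p * N - P.Lam * k))) := by gcongr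
    _ = ENNReal.ofReal (c2 * Real.exp (P.p * N - P.Lam * k)) * q y := by
        rw [ENNReal.ofReal_mul hc2n]; ring
    _ ≤ ENNReal.ofReal (Real.exp 11 * ((16 * φ * (1 + 1 / (P.p' - P.p)) * Mf y)
        * ((4 * Real.exp (-P.Lam)) ^ k * Real.exp (P.p' * N)))) * q y := by gcongr
    _ = _ := by
        unfold KK vw
        rw [ENNReal.ofReal_mul (p := Real.exp 11) (Real.exp_nonneg _),
          ENNReal.ofReal_mul (p := 16 * φ * (1 + 1 / (P.p' - P.p)) * Mf y) (by positivity),
          ENNReal.ofReal_mul (p := (4 * Real.exp (-P.Lam)) ^ k) (by positivity),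
          ENNReal.ofReal_pow (by positivity), ← hkdef]
        ring

omit [MeasurableSpace E] [BorelSpace E] in
lemma AllW.and {Q Q' : Submodule ℝ E → Prop} {T : Tree E ι}
    (h : AllW Q T) (h' : AllW Q' T) : AllW (fun W => Q W ∧ Q' W) T := by
  induction T with
  | leaf i => trivial
  | node W a c T ih => exact ⟨⟨h.1, h'.1⟩, fun k => ih k (h.2 k) (h'.2 k)⟩

/-- the total profile of a line -/
noncomputable def YU (P : Prm) : ℝ≥0∞ := YY (1 / 2 - P.p') univ

lemma YG_perp {τ : ℝ} {W : Submodule ℝ E} {e : E} (h : e ∈ Wᗮ) {G : Set E}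
    (hG : InvS W G) (y : E) : YG τ e G y = G.indicator 1 y * YY τ univ := by
  have key : ∀ u, (lin e y u ∈ G ↔ y ∈ G) := by
    intro u
    have : lin e y u = y + (u - ⟪y, e⟫) • e := by
      unfold lin
      rw [sub_smul]
      abel
    rw [this]
    exact hG y _ (Submodule.smul_mem _ _ h)
  unfold YG
  by_cases hy : y ∈ G
  · rw [indicator_of_mem hy, Pi.one_apply, one_mul]
    congr 1
    ext u
    simp [key, hy]
  · rw [indicator_of_notMem hy, zero_mul]
    have : {u | lin e y u ∈ G} = ∅ := by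
      ext u
      simp [key, hy]
    rw [this]
    simp [YY, nz]

end Vale.Agent.P262.H698
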