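import Vale.Agent.P262.H698.Rec

/-!
# P262, block ROT: the finite value cost of a rotation

`rot_value` : rotating a convex body by `φ` in a plane `(θ, b)` (`θ` a label direction, `b`
arbitrary) changes the nested value by at most `C β φ M q`.
-/

set_option linter.all false

open MeasureTheory ProbabilityTheory Set Module
open scoped ENNReal RealInnerProductSpace

namespace Vale.Agent.P262.H698

open Vale.Agent.P262.H395 Vale.Agent.P262.H395.Tree Vale.Agent.P262.H118

variable {E : Type*} [NormedAddCommGroup E] [InnerProductSpace ℝ E] [FiniteDimensional ℝ E]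
  [MeasurableSpace E] [BorelSpace E] {ι : Type*}

/-- displacement bound for moves in the direction `θ` -/
noncomputable def lamT (W0 : Submodule ℝ E) (b : E) (φ : ℝ) (W : Submodule ℝ E) (x : E) : ℝ :=
  2 ^ (kk W0 W + 1) * φ * (1 + |⟪x, W.starProjection b⟫| + |⟪x, b - W.starProjection b⟫|)

lemma measurable_lamT (W0 : Submodule ℝ E) (b : E) (φ : ℝ) (W : Submodule ℝ E) :
    Measurable (lamT W0 b φ W) := by
  unfold lamT
  fun_prop

lemma dirOK_T {W0 : Submodule ℝ E} {b : E} {φ : ℝ} (hφ : 0 ≤ φ) (hb : ‖b‖ = 1) (hb0 : b ∈ W0ᗮ)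
    {W : Submodule ℝ E} (h0W : W0 ≤ W) {e : E} (he : ‖e‖ = 1) (heW : e ∈ W) (heb : ⟪e, b⟫ = 0) :
    DirOK W0 φ e W (lamT W0 b φ W) where
  mem := heW
  nonneg := by
    intro x
    unfold lamT
    positivity
  along := by
    intro x u
    have h1 : ⟪e, W.starProjection b⟫ = 0 := by
      rw [← Submodule.inner_starProjection_left_eq_right,
        Submodule.starProjection_eq_self_iff.mpr heW, heb]
    have key : ∀ v : E, ⟪e, v⟫ = 0 → ⟪lin e x u, v⟫ = ⟪x, v⟫ := by
      intro v hv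
      unfold lin
      rw [inner_add_left, inner_sub_left, inner_smul_left, inner_smul_left, hv]
      simp
    unfold lamT
    rw [key _ h1, key _ (by rw [inner_sub_right, heb, h1, sub_zero])]
  bound := by
    have hPb : ‖W.starProjection b‖ ≤ 1 := by
      have := Submodule.norm_starProjection_apply_le W b
      rwa [hb] at this
    have hgb : ‖b - W.starProjection b‖ ≤ 1 := by
      have o1 : ⟪W.starProjection b, b - W.starProjection b⟫ = 0 :=
        (Submodule.mem_orthogonal W _).mp (Submodule.sub_starProjection_mem_orthogonal b) _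
          (Submodule.starProjection_apply_mem W b)
      have q1 := norm_add_sq_eq_norm_sq_add_norm_sq_of_inner_eq_zero _ _ o1
      rw [add_sub_cancel, hb] at q1
      nlinarith [norm_nonneg (b - W.starProjection b), norm_nonneg (W.starProjection b)]
    have h1 : ⟪W.starProjection b, e⟫ = 0 := by
      rw [Submodule.inner_starProjection_left_eq_right,
        Submodule.starProjection_eq_self_iff.mpr heW, real_inner_comm, heb]
    have h2 : W.starProjection b ∈ W0ᗮ := by
      rw [Submodule.mem_orthogonal]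
      intro w hw
      rw [← Submodule.inner_starProjection_left_eq_right,
        Submodule.starProjection_eq_self_iff.mpr (h0W hw)]
      exact (Submodule.mem_orthogonal W0 b).mp hb0 w hw
    obtain ⟨f, hf, hfz⟩ : ∃ f : E, ‖f‖ = 1 ∧ ∀ z, |⟪z, b - W.starProjection b⟫| ≤ |⟪z, f⟫| := by
      by_cases hg0 : b - W.starProjection b = 0
      · refine ⟨e, he, fun z => ?_⟩
        rw [hg0, inner_zero_right, abs_zero]
        exact abs_nonneg _
      · set g := b - W.starProjection b with hg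
        have hgp : 0 < ‖g‖ := norm_pos_iff.mpr hg0
        refine ⟨(‖g‖)⁻¹ • g, ?_, fun z => ?_⟩
        · rw [norm_smul, norm_inv, norm_norm, inv_mul_cancel₀ hgp.ne']
        · rw [inner_smul_right, abs_mul, abs_of_pos (inv_pos.mpr hgp)]
          have h3 : 1 ≤ (‖g‖)⁻¹ := by
            rw [one_le_inv₀ hgp]; exact hgb
          nlinarith [abs_nonneg ⟪z, g⟫]
    refine ⟨W.starProjection b, Submodule.starProjection_apply_mem W b, h2, hPb, h1, f, hf, ?_⟩
    intro y z
    unfold lamT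
    have e1 : ⟪mix W y z, W.starProjection b⟫ = ⟪y, W.starProjection b⟫ := by
      unfold mix
      rw [inner_add_left, inner_sub_left, Submodule.inner_starProjection_left_eq_right,
        Submodule.inner_starProjection_left_eq_right, proj_proj, sub_self, add_zero]
    have e2 : ⟪mix W y z, b - W.starProjection b⟫ = ⟪z, b - W.starProjection b⟫ := by
      unfold mix
      have h4 : W.starProjection (b - W.starProjection b) = 0 := by
        rw [map_sub, proj_proj, sub_self]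
      rw [inner_add_left, inner_sub_left, Submodule.inner_starProjection_left_eq_right,
        Submodule.inner_starProjection_left_eq_right, h4, inner_zero_right, inner_zero_right]
      simp
    rw [e1, e2]
    have h5 : 0 ≤ 2 ^ (kk W0 W + 1) * φ := by positivity
    exact mul_le_mul_of_nonneg_left (by have := hfz z; linarith) h5

lemma ww_self {P : Prm} {W0 : Submodule ℝ E} {e : E} (y : E) : ww P W0 W0 e y = 1 := by
  unfold ww gw kk NN
  simp

lemma vw_self {P : Prm} {W0 : Submodule ℝ E} (y : E) : vw P W0 W0 y = 1 := by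
  unfold vw kk NN
  simp

/-- the signed displacements of a rotation -/
noncomputable def Dth (θ b : E) (φ : ℝ) (x : E) : ℝ :=
  (Real.cos φ - 1) * ⟪θ, x⟫ - Real.sin φ * ⟪b, x⟫

/-- the signed displacements of a rotation -/
noncomputable def Db (θ b : E) (φ : ℝ) (x : E) : ℝ :=
  Real.sin φ * ⟪θ, x⟫ + (Real.cos φ - 1) * ⟪b, x⟫

lemma measurable_Dth (θ b : E) (φ : ℝ) : Measurable (Dth θ b φ) := by unfold Dth; fun_prop

lemma measurable_Db (θ b : E) (φ : ℝ) : Measurable (Db θ b φ) := by unfold Db; fun_prop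

lemma trig_bound {φ R s t : ℝ} (hφ : 0 ≤ φ) (hR : φ * R ≤ 1) (hs : |s| ≤ R) :
    |Real.cos φ - 1| * |s| + |Real.sin φ| * |t| ≤ φ * (1 + |t|) := by
  have h1 : |Real.sin φ| ≤ φ := by
    have := Real.abs_sin_le_abs (x := φ)
    rwa [abs_of_nonneg hφ] at this
  have h2 : |Real.cos φ - 1| ≤ φ ^ 2 / 2 := by
    rw [abs_of_nonpos (by linarith [Real.cos_le_one φ])]
    have := Real.one_sub_sq_div_two_le_cos (x := φ)
    linarith
  have h3 : |Real.cos φ - 1| * |s| ≤ φ := by
    calc |Real.cos φ - 1| * |s| ≤ φ ^ 2 / 2 * R := by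
          apply mul_le_mul h2 hs (abs_nonneg _) (by positivity)
      _ = φ * (φ * R) / 2 := by ring
      _ ≤ φ * 1 / 2 := by gcongr
      _ ≤ φ := by linarith
  have h4 : |Real.sin φ| * |t| ≤ φ * |t| := mul_le_mul_of_nonneg_right h1 (abs_nonneg _)
  linarith

lemma fib_univ {W0 : Submodule ℝ E} (F : E → ℝ≥0∞) (x : E) :
    fib W0 (fun y => (univ : Set E).indicator 1 y * F y) x = fib W0 F x := by
  congr 1
  funext y
  simp

/-- conditional expectations given `W0` do not see the rotation -/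
lemma fib_rot {W0 : Submodule ℝ E} {θ b : E} (h : ON θ b) (hθ0 : θ ∈ W0ᗮ) (hb0 : b ∈ W0ᗮ)
    (φ : ℝ) {F : E → ℝ≥0∞} (hF : Measurable F) (x : E) :
    fib W0 (fun y => F (rotL θ b φ y)) x = fib W0 F x := by
  have p1 : ∀ w ∈ W0, ⟪θ, w⟫ = 0 := fun w hw => by
    rw [real_inner_comm]; exact (Submodule.mem_orthogonal W0 θ).mp hθ0 w hw
  have p2 : ∀ w ∈ W0, ⟪b, w⟫ = 0 := fun w hw => by
    rw [real_inner_comm]; exact (Submodule.mem_orthogonal W0 b).mp hb0 w hw
  have q1 : W0.starProjection θ = 0 := proj_eq_zero hθ0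
  have q2 : W0.starProjection b = 0 := proj_eq_zero hb0
  have e1 : ∀ z, rotL θ b φ (mix W0 x z) = mix W0 x (rotL θ b φ z) := by
    intro z
    unfold mix
    rw [map_add, map_sub, rotL_of_perp φ (p1 _ (Submodule.starProjection_apply_mem W0 x))
      (p2 _ (Submodule.starProjection_apply_mem W0 x)),
      rotL_of_perp φ (p1 _ (Submodule.starProjection_apply_mem W0 z))
      (p2 _ (Submodule.starProjection_apply_mem W0 z))]
    congr 2
    rw [rotL_apply, map_add, map_add, map_smul, map_smul, q1, q2]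
    simp
  have hmp : (stdGaussian E).map (rotE h φ) = stdGaussian E := stdGaussian_map (rotE h φ)
  unfold fib
  have e2 : ∀ z, F (rotL θ b φ (mix W0 x z)) = (fun y => F (mix W0 x y)) (rotE h φ z) := by
    intro z
    rw [e1]
    rfl
  simp_rw [e2]
  have hm : Measurable fun y => F (mix W0 x y) := hF.comp (measurable_mix_right W0 x)
  rw [← lintegral_map hm (rotE h φ).continuous.measurable, hmp]

/-- **one small rotation** -/
theorem rot_small {P : Prm} {β : ℝ≥0∞} (hβ : Small P β) (hhalf : 2 * β ≤ 1)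
    {W0 : Submodule ℝ E} {q : E → ℝ≥0∞} {Mf : E → ℝ} (hM1 : ∀ y, 1 ≤ Mf y) (hqW : Inv W0 q)
    (hMW : ∀ x, ∀ w ∈ W0ᗮ, Mf (x + w) = Mf x) (hqm : Measurable q) (hMm : Measurable Mf)
    {θ b : E} (h : ON θ b) (hθ0 : θ ∈ W0ᗮ) (hb0 : b ∈ W0ᗮ) {φ R : ℝ} (hφ : 0 ≤ φ)
    (hφR : φ * R ≤ 1) {L : Set E} (hL : Convex ℝ L) (hLm : MeasurableSet L)
    (hLR : ∀ x ∈ L, ⟪θ, x⟫ ^ 2 + ⟪b, x⟫ ^ 2 ≤ R ^ 2) (hR : 0 ≤ R) (T : Tree E ι) (hT : Good T)
    (hA : Adm P W0 q Mf W0 T) (hD : AllW (fun W => θ ∈ W) T) (x : E) :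
    fib W0 (nest T fun _ => Lᶜ.indicator 1) x
      ≤ fib W0 (nest T fun _ => ({y | rotL θ b φ y ∈ L}ᶜ).indicator 1) x
        + (4 * YU P + kap P) * β * KK P φ q Mf x := by
  have hc : Continuous (rotL θ b φ) := (rotE h φ).continuous
  have hKm : MeasurableSet {y | rotL θ b φ y ∈ L} := hc.measurable hLm
  set K : Set E := {y | rotL θ b φ y ∈ L} with hK
  have mLc : Measurable (Lᶜ.indicator (1 : E → ℝ≥0∞)) := measurable_one.indicator hLm.compl
  have mKc : Measurable (Kᶜ.indicator (1 : E → ℝ≥0∞)) := measurable_one.indicator hKm.compl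
  set h1 := sx L (fun z => 2 * Dth θ b φ z) θ with hh1
  set h2 := sx L (fun z => 2 * Db θ b φ z) b with hh2
  have mh1 : Measurable h1 := measurable_sx hLm ((measurable_Dth θ b φ).const_mul _) θ
  have mh2 : Measurable h2 := measurable_sx hLm ((measurable_Db θ b φ).const_mul _) b
  -- the displacement
  have hKL : ∀ y, Kᶜ.indicator (1 : E → ℝ≥0∞) y ≤ Lᶜ.indicator 1 y + (h1 y + h2 y) := by
    intro y
    by_cases hy : rotL θ b φ y ∈ L
    · rw [indicator_of_notMem (show y ∉ Kᶜ by simpa [hK] using hy)]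
      exact bot_le
    · rw [indicator_of_mem (show y ∈ Kᶜ from hy)]
      by_cases hyL : y ∈ L
      · refine le_trans ?_ le_add_self
        have hor : y + (2 * Dth θ b φ y) • θ ∉ L ∨ y + (2 * Db θ b φ y) • b ∉ L := by
          by_contra hcon
          push Not at hcon
          apply hy
          have h3 := hL hcon.1 hcon.2 (a := 1 / 2) (b := 1 / 2) (by norm_num) (by norm_num)
            (by norm_num)
          have e1 : (1 / 2 : ℝ) • (y + (2 * Dth θ b φ y) • θ)
              + (1 / 2 : ℝ) • (y + (2 * Db θ b φ y) • b) = rotL θ b φ y := by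
            rw [rotL_apply]
            unfold Dth Db
            module
          rwa [e1] at h3
        rcases hor with h4 | h4
        · rw [hh1]
          unfold sx
          rw [indicator_of_mem (show y ∈ {x | x ∈ L ∧ x + (2 * Dth θ b φ x) • θ ∉ L} from
            ⟨hyL, h4⟩)]
          exact le_self_add
        · rw [hh2]
          unfold sx
          rw [indicator_of_mem (show y ∈ {x | x ∈ L ∧ x + (2 * Db θ b φ x) • b ∉ L} from
            ⟨hyL, h4⟩)]
          exact le_add_self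
      · rw [indicator_of_mem (show y ∈ Lᶜ from hyL)]
        exact le_self_add
  -- the masses given `W0` are equal
  have heq : fib W0 (Lᶜ.indicator 1) x = fib W0 (Kᶜ.indicator 1) x := by
    rw [← fib_rot h hθ0 hb0 φ mLc x]
    congr 1
  have hfin : fib W0 (Kᶜ.indicator 1) x ≠ ∞ := by
    have : fib W0 (Kᶜ.indicator 1) x ≤ 1 := by
      apply fib_le_one
      intro y
      exact indicator_le_self' (fun _ _ => bot_le) y
    exact ne_top_of_le_ne_top ENNReal.one_ne_top this
  have hv := value_cost' hT mKc mLc (mh1.add mh2) hKL (hA.above) x heq hfin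
  refine hv.trans ?_
  gcongr
  -- the cost
  have hbnd : ∀ y ∈ L, |⟪θ, y⟫| ≤ R ∧ |⟪b, y⟫| ≤ R := by
    intro y hy
    have := hLR y hy
    constructor
    · exact abs_le_of_sq_le_sq (by nlinarith [sq_nonneg ⟪b, y⟫]) hR
    · exact abs_le_of_sq_le_sq (by nlinarith [sq_nonneg ⟪θ, y⟫]) hR
  have hDth : ∀ y ∈ L, |Dth θ b φ y| ≤ φ * (1 + |⟪y, b⟫|) := by
    intro y hy
    have h3 := trig_bound hφ hφR (hbnd y hy).1 (t := ⟪b, y⟫)
    unfold Dth
    refine (abs_sub _ _).trans ?_
    rw [abs_mul, abs_mul, real_inner_comm b y]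
    exact h3
  have hDb : ∀ y ∈ L, |Db θ b φ y| ≤ φ * (1 + |⟪y, θ⟫|) := by
    intro y hy
    have h3 := trig_bound hφ hφR (hbnd y hy).2 (t := ⟪θ, y⟫)
    unfold Db
    refine (abs_add_le _ _).trans ?_
    rw [abs_mul, abs_mul, real_inner_comm θ y, add_comm]
    exact h3
  have c0 : ∀ y, stopCost (Lᶜ.indicator 1) (fun z => h1 z + h2 z) T y
      ≤ pathCost (Lᶜ.indicator 1) h1 T y + pathCost (Lᶜ.indicator 1) h2 T y := fun y =>
    (stopCost_le_pathCost hT mLc y).trans (pathCost_add T _ mh1 y)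
  have m1 : Measurable (pathCost (Lᶜ.indicator 1) h1 T) := measurable_pathCost hT mLc mh1
  -- the direction `θ`
  have part1 : fib W0 (pathCost (Lᶜ.indicator 1) h1 T) x ≤ 4 * YU P * β * KK P φ q Mf x := by
    have mlT := measurable_lamT W0 b φ
    have hab : AllW (fun W => W0 < W ∧ θ ∈ W) T := hA.allW.and hD
    have hle : AllW (fun W => ∀ z ∈ L, |2 * Dth θ b φ z| ≤ lamT W0 b φ W z) T := by
      refine hab.mono fun W hW z hz => ?_
      have h3 := hDth z hz
      have hk : 1 ≤ kk W0 W := by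
        unfold kk
        have := Submodule.finrank_lt_finrank_of_lt hW.1
        omega
      have h4 : (2:ℝ) ≤ 2 ^ (kk W0 W + 1) := by
        calc (2:ℝ) = 2 ^ 1 := by norm_num
          _ ≤ _ := pow_le_pow_right₀ (by norm_num) (by omega)
      have h5 : |⟪z, b⟫| ≤ |⟪z, W.starProjection b⟫| + |⟪z, b - W.starProjection b⟫| := by
        have : ⟪z, b⟫ = ⟪z, W.starProjection b⟫ + ⟪z, b - W.starProjection b⟫ := by
          rw [← inner_add_right]; congr 1; abel
        rw [this]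
        exact abs_add_le _ _
      unfold lamT
      rw [abs_mul, abs_two]
      calc 2 * |Dth θ b φ z| ≤ 2 * (φ * (1 + |⟪z, b⟫|)) := by gcongr
        _ = 2 * φ * (1 + |⟪z, b⟫|) := by ring
        _ ≤ 2 ^ (kk W0 W + 1) * φ
            * (1 + |⟪z, W.starProjection b⟫| + |⟪z, b - W.starProjection b⟫|) := by
          apply mul_le_mul (mul_le_mul_of_nonneg_right h4 hφ) (by linarith) (by positivity)
            (by positivity)
    have hc1 := fun y => pathCost_le_dir hL hLm mlT (one_smul ℝ θ).symm zero_le_one le_rfl T hle y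
    have dsum : ∀ e : E, ‖e‖ = 1 → (∀ W : Submodule ℝ E, θ ∈ W → e ∈ W) → e ∈ W0ᗮ → ⟪e, b⟫ = 0 →
        fib W0 (dirCost L (lamT W0 b φ) e T) x ≤ 2 * YU P * β * KK P φ q Mf x := by
      intro e he heW he0 heb
      have hdir : AllW (fun W => DirOK W0 φ e W (lamT W0 b φ W)) T :=
        hab.mono fun W hW => dirOK_T hφ h.hq hb0 hW.1.le he (heW W hW.2) heb
      have hds := dir_sum hβ hφ hM1 hqW hMW hqm hMm hL hLm mlT he he0 T W0 le_rfl
        (Or.inr he0) hT hA hdir univ MeasurableSet.univ (fun z w _ => by simp) x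
      rw [fib_univ] at hds
      refine hds.trans (le_of_eq ?_)
      have e5 : (fun y => ww P W0 W0 e y * YG (1 / 2 - P.p') e univ y) = fun _ => YU P := by
        funext y
        rw [ww_self, one_mul]
        unfold YG YU
        congr 1
      rw [e5, fib_const]
      ring
    have mdir : Measurable (dirCost L (lamT W0 b φ) θ T) := measurable_dirCost hT hLm mlT θ
    calc fib W0 (pathCost (Lᶜ.indicator 1) h1 T) x
        ≤ fib W0 (fun y => dirCost L (lamT W0 b φ) θ T y + dirCost L (lamT W0 b φ) (-θ) T y) x :=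
          fib_mono hc1 x
      _ = fib W0 (dirCost L (lamT W0 b φ) θ T) x + fib W0 (dirCost L (lamT W0 b φ) (-θ) T) x :=
          fib_add mdir x
      _ ≤ 2 * YU P * β * KK P φ q Mf x + 2 * YU P * β * KK P φ q Mf x :=
          add_le_add (dsum θ h.hp (fun W hW => hW) hθ0 h.hpq)
            (dsum (-θ) (by rw [norm_neg, h.hp]) (fun W hW => Submodule.neg_mem _ hW)
              (Submodule.neg_mem _ hθ0) (by rw [inner_neg_left, h.hpq, neg_zero]))
      _ = _ := by ring
  -- the components of `b`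
  have part2 : fib W0 (pathCost (Lᶜ.indicator 1) h2 T) x ≤ kap P * β * KK P φ q Mf x := by
    have R' : RotData W0 θ b φ L (Db θ b φ) :=
      { hθ := h.hp, hb := h.hq, hθb := h.hpq, hθ0 := hθ0, hb0 := hb0, hφ := hφ, conv := hL,
        meas := hLm, mt := measurable_Db θ b φ, le := hDb }
    have hr := rem_sum hβ hhalf hM1 hqW hMW hqm hMm R' T W0 le_rfl
      (by rw [proj_eq_zero hθ0, inner_zero_right]) hT hA hD univ MeasurableSet.univ
      (fun z w _ => by simp) x
    rw [fib_univ, fib_univ] at hr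
    have e1 : kk W0 W0 = 0 := by unfold kk; simp
    rw [e1, proj_eq_zero hb0, sub_zero, zero_add, pow_one] at hr
    refine hr.trans (le_of_eq ?_)
    have e2 : vw P W0 W0 = fun _ => 1 := by
      funext y
      exact vw_self y
    rw [e2, fib_const, mul_one]
  calc fib W0 (stopCost (Lᶜ.indicator 1) (fun z => h1 z + h2 z) T) x
      ≤ fib W0 (fun y => pathCost (Lᶜ.indicator 1) h1 T y
        + pathCost (Lᶜ.indicator 1) h2 T y) x := fib_mono c0 x
    _ = fib W0 (pathCost (Lᶜ.indicator 1) h1 T) x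
        + fib W0 (pathCost (Lᶜ.indicator 1) h2 T) x := fib_add m1 x
    _ ≤ 4 * YU P * β * KK P φ q Mf x + kap P * β * KK P φ q Mf x := add_le_add part1 part2
    _ = _ := by ring

/-- **ROT.** The value cost of a rotation by any angle `φ ≥ 0`. -/
theorem rot_value {P : Prm} {β : ℝ≥0∞} (hβ : Small P β) (hhalf : 2 * β ≤ 1)
    {W0 : Submodule ℝ E} {q : E → ℝ≥0∞} {Mf : E → ℝ} (hM1 : ∀ y, 1 ≤ Mf y) (hqW : Inv W0 q)
    (hMW : ∀ x, ∀ w ∈ W0ᗮ, Mf (x + w) = Mf x) (hqm : Measurable q) (hMm : Measurable Mf)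
    {θ b : E} (h : ON θ b) (hθ0 : θ ∈ W0ᗮ) (hb0 : b ∈ W0ᗮ) {φ : ℝ} (hφ : 0 ≤ φ)
    {K : Set E} (hK : Convex ℝ K) (hKm : MeasurableSet K) {R : ℝ}
    (hKR : ∀ x ∈ K, ⟪θ, x⟫ ^ 2 + ⟪b, x⟫ ^ 2 ≤ R ^ 2) (T : Tree E ι) (hT : Good T)
    (hA : Adm P W0 q Mf W0 T) (hD : AllW (fun W => θ ∈ W) T) (x : E) :
    fib W0 (nest T fun _ => Kᶜ.indicator 1) x
      ≤ fib W0 (nest T fun _ => ({y | rotL θ b φ y ∈ K}ᶜ).indicator 1) x
        + (4 * YU P + kap P) * β * KK P φ q Mf x := by
  -- number of steps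
  obtain ⟨n, hn⟩ := exists_nat_ge (φ * |R|)
  set N : ℕ := n + 1 with hN
  have hNpos : (0:ℝ) < N := by rw [hN]; positivity
  set δ := φ / N with hδ
  have hδ0 : 0 ≤ δ := by positivity
  have hδR : δ * |R| ≤ 1 := by
    rw [hδ, div_mul_eq_mul_div, div_le_one hNpos]
    have : (n:ℝ) ≤ N := by rw [hN]; push_cast; linarith
    linarith
  -- the bodies
  set B : ℕ → Set E := fun j => {y | rotL θ b (j * δ) y ∈ K} with hB
  have hBc : ∀ j, Convex ℝ (B j) := fun j => hK.linear_preimage (rotL θ b (j * δ))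
  have hBm : ∀ j, MeasurableSet (B j) := fun j =>
    (rotE h (j * δ)).continuous.measurable hKm
  have hBR : ∀ j, ∀ y ∈ B j, ⟪θ, y⟫ ^ 2 + ⟪b, y⟫ ^ 2 ≤ |R| ^ 2 := by
    intro j y hy
    have h1 := hKR _ hy
    rw [h.inner_p, h.inner_q] at h1
    rw [sq_abs]
    have h2 := Real.sin_sq_add_cos_sq (j * δ)
    calc ⟪θ, y⟫ ^ 2 + ⟪b, y⟫ ^ 2
        = (Real.sin (j * δ) ^ 2 + Real.cos (j * δ) ^ 2) * (⟪θ, y⟫ ^ 2 + ⟪b, y⟫ ^ 2) := by
          rw [h2, one_mul]
      _ = (Real.cos (j * δ) * ⟪θ, y⟫ - Real.sin (j * δ) * ⟪b, y⟫) ^ 2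
          + (Real.sin (j * δ) * ⟪θ, y⟫ + Real.cos (j * δ) * ⟪b, y⟫) ^ 2 := by ring
      _ ≤ R ^ 2 := h1
  have hstep : ∀ j, {y | rotL θ b δ y ∈ B j} = B (j + 1) := by
    intro j
    ext y
    simp only [hB, mem_setOf_eq]
    rw [h.rot_rot]
    have : (j:ℝ) * δ + δ = ((j + 1 : ℕ) : ℝ) * δ := by push_cast; ring
    rw [this]
  have hone : ∀ j, fib W0 (nest T fun _ => (B j)ᶜ.indicator 1) x
      ≤ fib W0 (nest T fun _ => (B (j + 1))ᶜ.indicator 1) x
        + (4 * YU P + kap P) * β * KK P δ q Mf x := by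
    intro j
    have := rot_small hβ hhalf hM1 hqW hMW hqm hMm h hθ0 hb0 hδ0 hδR (hBc j) (hBm j) (hBR j)
      (abs_nonneg R) T hT hA hD x
    rwa [hstep j] at this
  have hall : ∀ j : ℕ, fib W0 (nest T fun _ => (B 0)ᶜ.indicator 1) x
      ≤ fib W0 (nest T fun _ => (B j)ᶜ.indicator 1) x
        + j * ((4 * YU P + kap P) * β * KK P δ q Mf x) := by
    intro j
    induction j with
    | zero => simp
    | succ j ih =>
      refine ih.trans ?_
      calc _ ≤ (fib W0 (nest T fun _ => (B (j + 1))ᶜ.indicator 1) x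
            + (4 * YU P + kap P) * β * KK P δ q Mf x)
            + j * ((4 * YU P + kap P) * β * KK P δ q Mf x) := by
            gcongr
            exact hone j
        _ = _ := by push_cast; ring
  have h0 : B 0 = K := by
    ext y
    simp only [hB, mem_setOf_eq, Nat.cast_zero, zero_mul, ON.rot_zero]
  have hNN : B N = {y | rotL θ b φ y ∈ K} := by
    ext y
    simp only [hB, mem_setOf_eq]
    have : (N:ℝ) * δ = φ := by rw [hδ]; field_simp
    rw [this]
  have hfin := hall N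
  rw [h0, hNN] at hfin
  refine hfin.trans (le_of_eq ?_)
  congr 1
  unfold KK
  have e1 : ENNReal.ofReal (16 * φ * (1 + 1 / (P.p' - P.p)) * Mf x)
      = N * ENNReal.ofReal (16 * δ * (1 + 1 / (P.p' - P.p)) * Mf x) := by
    rw [← ENNReal.ofReal_natCast N, ← ENNReal.ofReal_mul hNpos.le]
    congr 1
    rw [hδ]
    field_simp
  rw [e1]
  ring

/-- **ROT**, the other direction of the rotation -/
theorem rot_value' {P : Prm} {β : ℝ≥0∞} (hβ : Small P β) (hhalf : 2 * β ≤ 1)
    {W0 : Submodule ℝ E} {q : E → ℝ≥0∞} {Mf : E → ℝ} (hM1 : ∀ y, 1 ≤ Mf y) (hqW : Inv W0 q)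
    (hMW : ∀ x, ∀ w ∈ W0ᗮ, Mf (x + w) = Mf x) (hqm : Measurable q) (hMm : Measurable Mf)
    {θ b : E} (h : ON θ b) (hθ0 : θ ∈ W0ᗮ) (hb0 : b ∈ W0ᗮ) {φ : ℝ} (hφ : 0 ≤ φ)
    {K : Set E} (hK : Convex ℝ K) (hKm : MeasurableSet K) {R : ℝ}
    (hKR : ∀ x ∈ K, ⟪θ, x⟫ ^ 2 + ⟪b, x⟫ ^ 2 ≤ R ^ 2) (T : Tree E ι) (hT : Good T)
    (hA : Adm P W0 q Mf W0 T) (hD : AllW (fun W => θ ∈ W) T) (x : E) :
    fib W0 (nest T fun _ => ({y | rotL θ b φ y ∈ K}ᶜ).indicator 1) x
      ≤ fib W0 (nest T fun _ => Kᶜ.indicator 1) x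
        + (4 * YU P + kap P) * β * KK P φ q Mf x := by
  set K' : Set E := {y | rotL θ b φ y ∈ K} with hK'
  have hON : ON θ (-b) := ⟨h.hp, by rw [norm_neg, h.hq], by rw [inner_neg_right, h.hpq, neg_zero]⟩
  have hneg : ∀ y, rotL θ (-b) φ y = rotL θ b (-φ) y := by
    intro y
    rw [rotL_apply, rotL_apply, Real.cos_neg, Real.sin_neg, inner_neg_left]
    module
  have hK'c : Convex ℝ K' := hK.linear_preimage (rotL θ b φ)
  have hK'm : MeasurableSet K' := (rotE h φ).continuous.measurable hKm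
  have hK'R : ∀ y ∈ K', ⟪θ, y⟫ ^ 2 + ⟪-b, y⟫ ^ 2 ≤ R ^ 2 := by
    intro y hy
    have h1 := hKR _ hy
    rw [h.inner_p, h.inner_q] at h1
    rw [inner_neg_left]
    have h2 := Real.sin_sq_add_cos_sq φ
    calc ⟪θ, y⟫ ^ 2 + (-⟪b, y⟫) ^ 2
        = (Real.sin φ ^ 2 + Real.cos φ ^ 2) * (⟪θ, y⟫ ^ 2 + ⟪b, y⟫ ^ 2) := by
          rw [h2]; ring
      _ = (Real.cos φ * ⟪θ, y⟫ - Real.sin φ * ⟪b, y⟫) ^ 2
          + (Real.sin φ * ⟪θ, y⟫ + Real.cos φ * ⟪b, y⟫) ^ 2 := by ring
      _ ≤ R ^ 2 := h1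
  have := rot_value hβ hhalf hM1 hqW hMW hqm hMm hON hθ0 (Submodule.neg_mem _ hb0) hφ hK'c hK'm
    hK'R T hT hA hD x
  have e : {y | rotL θ (-b) φ y ∈ K'} = K := by
    ext y
    simp only [hK', mem_setOf_eq, hneg, h.rot_rot, add_neg_cancel, ON.rot_zero]
  rwa [e] at this

end Vale.Agent.P262.H698
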