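import Vale.Agent.P262.H698.Gmom
import Vale.Agent.P262.H698.Cost

/-!
# P262, block ROT, part 7: sums over the tree of labels
-/

set_option linter.all false

open MeasureTheory ProbabilityTheory Set Module
open scoped ENNReal RealInnerProductSpace

namespace Vale.Agent.P262.H698

open Vale.Agent.P262.H395 Vale.Agent.P262.H395.Tree

/-- the parameters of the caps and of the classes -/
structure Prm where
  /-- exponent of the caps -/
  p : ℝ
  /-- exponent used in the estimates -/
  p' : ℝ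
  /-- loss per dimension -/
  Lam : ℝ
  /-- class constant -/
  Cc : ℝ≥0∞
  p_nonneg : 0 ≤ p
  lt1 : p < p'
  lt2 : p' < 1 / 2

variable {E : Type*} [NormedAddCommGroup E] [InnerProductSpace ℝ E] [FiniteDimensional ℝ E]
  [MeasurableSpace E] [BorelSpace E] {ι : Type*}

/-- number of new dimensions -/
noncomputable def kk (W0 W : Submodule ℝ E) : ℕ := finrank ℝ W - finrank ℝ W0

/-- admissible caps: monotone on lines in label directions, between two Gaussian bounds -/
structure CapOK (P : Prm) (W0 : Submodule ℝ E) (q : E → ℝ≥0∞) (Mf : E → ℝ) (W : Submodule ℝ E)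
    (a : E → ℝ≥0∞) : Prop where
  mono : ∀ e ∈ W, e ∈ W0ᗮ → ‖e‖ = 1 → ∀ y u r, |u| ≤ r → a (lin e y u) ≤ a (lin e y r)
  upper : ∀ y, a y ≤ q y * ENNReal.ofReal (Real.exp (P.p * NN W0 W y - P.Lam * kk W0 W))
  lower : ∀ y, ENNReal.ofReal (Real.exp (-((Mf y * 2 ^ kk W0 W) ^ 2) / 2)) ≤ a y

/-- admissible classes -/
def ClsOK (P : Prm) (W0 : Submodule ℝ E) (W : Submodule ℝ E) (c : E → ℕ) : Prop :=
  ∀ e ∈ W, e ∈ W0ᗮ → ‖e‖ = 1 → ∀ y, ∀ S : Set ℝ, MeasurableSet S →
    ∑' k, YY (1 / 2 - P.p') (S ∩ {u | c (lin e y u) = k}) ≤ P.Cc * YY (1 / 2 - P.p') S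

/-- admissible trees, `Wp` is the label space of the parent -/
def Adm (P : Prm) (W0 : Submodule ℝ E) (q : E → ℝ≥0∞) (Mf : E → ℝ) :
    Submodule ℝ E → Tree E ι → Prop
  | _, leaf _ => True
  | Wp, node W a c T => Wp < W ∧ CapOK P W0 q Mf W a ∧ ClsOK P W0 W c ∧
      ∀ k, Adm P W0 q Mf W (T k)

/-- all node spaces satisfy `Q` -/
def AllW (Q : Submodule ℝ E → Prop) : Tree E ι → Prop
  | leaf _ => True
  | node W _ _ T => Q W ∧ ∀ k, AllW Q (T k)

lemma AllW.mono {Q Q' : Submodule ℝ E → Prop} (h : ∀ W, Q W → Q' W) {T : Tree E ι}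
    (hT : AllW Q T) : AllW Q' T := by
  induction T with
  | leaf i => trivial
  | node W a c T ih => exact ⟨h _ hT.1, fun k => ih k (hT.2 k)⟩

lemma Adm.above {P : Prm} {W0 : Submodule ℝ E} {q : E → ℝ≥0∞} {Mf : E → ℝ}
    {Wp : Submodule ℝ E} {T : Tree E ι} (h : Adm P W0 q Mf Wp T) : Above Wp T := by
  cases T with
  | leaf i => trivial
  | node W a c T => exact h.1.le

/-- all node spaces of an admissible tree are above the parent -/
lemma Adm.allW {P : Prm} {W0 : Submodule ℝ E} {q : E → ℝ≥0∞} {Mf : E → ℝ}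
    {Wp : Submodule ℝ E} {T : Tree E ι} (h : Adm P W0 q Mf Wp T) : AllW (fun W => Wp < W) T := by
  induction T generalizing Wp with
  | leaf i => trivial
  | node W a c T ih =>
    exact ⟨h.1, fun k => (ih k (h.2.2.2 k)).mono fun V hV => h.1.trans hV⟩

/-- an invariant set -/
def InvS (W : Submodule ℝ E) (G : Set E) : Prop := ∀ x, ∀ w ∈ Wᗮ, (x + w ∈ G ↔ x ∈ G)

lemma measurable_nz {S : Set ℝ} (hS : MeasurableSet S) : Measurable (nz S) := by
  unfold nz
  have hset : MeasurableSet {p : ℝ × ℝ | p.2 ∈ S ∧ -p.1 < p.2 ∧ p.2 < p.1} :=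
    (measurable_snd hS).inter ((measurableSet_lt measurable_fst.neg measurable_snd).inter
      (measurableSet_lt measurable_snd measurable_fst))
  have hv : Measurable fun r : ℝ => volume (S ∩ Ioo (-r) r) :=
    measurable_measure_prodMk_left hset
  exact Measurable.ite (hv (measurableSet_singleton 0)) measurable_const measurable_const

/-- the profile of the set `G` on the line through `y` -/
noncomputable def YG (τ : ℝ) (e : E) (G : Set E) (y : E) : ℝ≥0∞ := YY τ {u | lin e y u ∈ G}

lemma measurable_YG (τ : ℝ) (e : E) {G : Set E} (hG : MeasurableSet G) :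
    Measurable (YG τ e G) := by
  unfold YG YY
  have hset : MeasurableSet {p : (E × ℝ) × ℝ | lin e p.1.1 p.2 ∈ G ∧ -p.1.2 < p.2 ∧ p.2 < p.1.2} := by
    have h1 : Measurable fun p : (E × ℝ) × ℝ => lin e p.1.1 p.2 :=
      (measurable_lin e).comp ((measurable_fst.comp measurable_fst).prodMk measurable_snd)
    have h2 : Measurable fun p : (E × ℝ) × ℝ => p.1.2 := measurable_snd.comp measurable_fst
    exact (h1 hG).inter ((measurableSet_lt h2.neg measurable_snd).inter
      (measurableSet_lt measurable_snd h2))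
  have hv : Measurable fun p : E × ℝ => volume ({u | lin e p.1 u ∈ G} ∩ Ioo (-p.2) p.2) :=
    measurable_measure_prodMk_left hset
  have hnz : Measurable fun p : E × ℝ => nz {u | lin e p.1 u ∈ G} p.2 := by
    unfold nz
    exact Measurable.ite (hv (measurableSet_singleton 0)) measurable_const measurable_const
  have hm : Measurable fun p : E × ℝ => ENNReal.ofReal (p.2 * Real.exp (-(τ * p.2 ^ 2)))
      * nz {u | lin e p.1 u ∈ G} p.2 := by
    refine Measurable.mul ?_ hnz
    fun_prop
  exact hm.lintegral_prod_right'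

lemma inv_YG {τ : ℝ} {W : Submodule ℝ E} {e : E} (hor : e ∈ W ∨ e ∈ Wᗮ) {G : Set E}
    (hG : InvS W G) : Inv W (YG τ e G) := by
  intro x w hw
  unfold YG
  congr 1
  ext u
  simp only [mem_setOf_eq]
  rcases hor with h | h
  · have h1 : ⟪w, e⟫ = 0 := by
      rw [real_inner_comm]
      exact (Submodule.mem_orthogonal W w).mp hw e h
    have : lin e (x + w) u = lin e x u + w := by
      unfold lin
      rw [inner_add_left, h1, add_zero]
      abel
    rw [this]
    exact hG _ w hw
  · have key : ∀ y u, (lin e y u ∈ G ↔ y ∈ G) := by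
      intro y u
      have : lin e y u = y + (u - ⟪y, e⟫) • e := by
        unfold lin
        rw [sub_smul]
        abel
      rw [this]
      exact hG y _ (Submodule.smul_mem _ _ h)
    rw [key, key]
    exact hG x w hw

/-- the cost of the moves in one direction along the path of `x` -/
noncomputable def dirCost (L : Set E) (lam : Submodule ℝ E → E → ℝ) (e : E) :
    Tree E ι → E → ℝ≥0∞
  | leaf _ => fun _ => 0
  | node W a c T => fun x =>
      nodeCost W a (Lᶜ.indicator 1) (exitI L (lam W) e) x + dirCost L lam e (T (c x)) x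

@[simp] lemma dirCost_leaf (L : Set E) (lam : Submodule ℝ E → E → ℝ) (e : E) (i : ι) (x : E) :
    dirCost L lam e (leaf i : Tree E ι) x = 0 := rfl

@[simp] lemma dirCost_node (L : Set E) (lam : Submodule ℝ E → E → ℝ) (e : E)
    (W : Submodule ℝ E) (a : E → ℝ≥0∞) (c : E → ℕ) (T : ℕ → Tree E ι) (x : E) :
    dirCost L lam e (node W a c T) x
      = nodeCost W a (Lᶜ.indicator 1) (exitI L (lam W) e) x + dirCost L lam e (T (c x)) x := rfl

lemma measurable_dirCost {T : Tree E ι} (hT : Good T) {L : Set E} (hL : MeasurableSet L)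
    {lam : Submodule ℝ E → E → ℝ} (hlam : ∀ W, Measurable (lam W)) (e : E) :
    Measurable (dirCost L lam e T) := by
  induction T with
  | leaf i => exact measurable_const
  | node W a c T ih =>
    obtain ⟨ha, haW, hc, hcW, hab, hg⟩ := hT
    exact (measurable_nodeCost ha (measurable_one.indicator hL.compl)
      (measurable_exitI hL (hlam W) e)).add
      (measurable_sel (F := fun k => dirCost L lam e (T k)) (fun k => ih k (hg k)) hc)

/-- admissible displacements in the direction `e` at the label space `W` -/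
structure DirOK (W0 : Submodule ℝ E) (φ : ℝ) (e : E) (W : Submodule ℝ E) (lam : E → ℝ) : Prop where
  mem : e ∈ W
  nonneg : ∀ x, 0 ≤ lam x
  along : ∀ x u, lam (lin e x u) = lam x
  bound : ∃ g ∈ W, g ∈ W0ᗮ ∧ ‖g‖ ≤ 1 ∧ ⟪g, e⟫ = 0 ∧ ∃ f : E, ‖f‖ = 1 ∧
    ∀ y z, lam (mix W y z) ≤ 2 ^ (kk W0 W + 1) * φ * (1 + |⟪y, g⟫| + |⟪z, f⟫|)

/-- the constant of the estimates -/
noncomputable def KK (P : Prm) (φ : ℝ) (q : E → ℝ≥0∞) (Mf : E → ℝ) (y : E) : ℝ≥0∞ :=
  ENNReal.ofReal (16 * φ * (1 + 1 / (P.p' - P.p)) * Mf y) * q y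

/-- the weight at a label space -/
noncomputable def ww (P : Prm) (W0 W : Submodule ℝ E) (e : E) (y : E) : ℝ≥0∞ :=
  ENNReal.ofReal (4 * Real.exp (-P.Lam)) ^ kk W0 W * gw P.p' W0 W e y

lemma measurable_ww (P : Prm) (W0 W : Submodule ℝ E) (e : E) : Measurable (ww P W0 W e) :=
  (measurable_gw _ _ _ _).const_mul _

lemma one_add_le {δ t : ℝ} (hδ : 0 < δ) (hδ1 : δ ≤ 1) (ht : 0 ≤ t) :
    1 + t ≤ (1 + 1 / δ) * Real.exp (δ * t ^ 2) := by
  have h1 : 1 + δ * t ^ 2 ≤ Real.exp (δ * t ^ 2) := by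
    have := Real.add_one_le_exp (δ * t ^ 2)
    linarith
  have h2 : 1 + t ≤ (1 + 1 / δ) * (1 + δ * t ^ 2) := by
    have e : (1 + 1 / δ) * (1 + δ * t ^ 2) = 1 + 1 / δ + t ^ 2 + δ * t ^ 2 := by
      field_simp
      ring
    have h3 : 1 ≤ 1 / δ := by rw [le_div_iff₀ hδ]; linarith
    rw [e]
    nlinarith [sq_nonneg (t - 1), mul_nonneg hδ.le (sq_nonneg t)]
  exact h2.trans (mul_le_mul_of_nonneg_left h1 (by positivity))

/-- **cost of one node in one label direction** -/
theorem node_dir {P : Prm} {W0 W : Submodule ℝ E} (hW0 : W0 ≤ W) {φ : ℝ} (hφ : 0 ≤ φ)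
    (hk : 1 ≤ kk W0 W)
    {q : E → ℝ≥0∞} {Mf : E → ℝ} (hM1 : ∀ y, 1 ≤ Mf y)
    (hqW : Inv W0 q) (hMW : ∀ x, ∀ w ∈ W0ᗮ, Mf (x + w) = Mf x)
    {a : E → ℝ≥0∞} (ham : Measurable a) (hcap : CapOK P W0 q Mf W a)
    {e : E} (he : ‖e‖ = 1) (he0 : e ∈ W0ᗮ) {L : Set E} (hL : Convex ℝ L) (hLm : MeasurableSet L)
    {lam : E → ℝ} (hlam : Measurable lam) (hd : DirOK W0 φ e W lam)
    {G : Set E} (hG : MeasurableSet G) (y : E) :
    fib (perp e) (fun x => G.indicator 1 x * nodeCost W a (Lᶜ.indicator 1) (exitI L lam e) x) y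
      ≤ KK P φ q Mf y * (ww P W0 W e y * YG (1 / 2 - P.p') e G y) := by
  have heW := hd.mem
  refine (label_move he heW hL hLm hlam hd.nonneg hd.along ham
    (hcap.mono e heW he0 he) hG y).trans ?_
  obtain ⟨g, hgW, hg0, hg1, hge, f, hf, hb⟩ := hd.bound
  set k := kk W0 W with hkdef
  set y0 := lin e y 0 with hy0
  set M := Mf y * 2 ^ k with hMdef
  have h2k : (2:ℝ) ≤ 2 ^ k := by
    calc (2:ℝ) = 2 ^ 1 := by norm_num
      _ ≤ 2 ^ k := pow_le_pow_right₀ (by norm_num) hk
  have hMf := hM1 y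
  have hM0 : 0 ≤ M := by positivity
  -- invariance of `q`, `Mf` along the line
  have hline : ∀ u, lin e y u = y + (u - ⟪y, e⟫) • e := by
    intro u
    unfold lin
    rw [sub_smul]
    abel
  have hqu : ∀ u, q (lin e y u) = q y := by
    intro u
    rw [hline]
    exact hqW y _ (Submodule.smul_mem _ _ he0)
  have hMu : ∀ u, Mf (lin e y u) = Mf y := by
    intro u
    rw [hline]
    exact hMW y _ (Submodule.smul_mem _ _ he0)
  have hNu : ∀ u, NN W0 W (lin e y u) = NN W0 W y0 + u ^ 2 := by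
    intro u
    rw [NN_lin_le he heW he0 (lin e y u), inner_lin he, lin_lin he]
  -- the bound of the displacement
  set κ1 := 2 ^ (k + 1) * φ with hκ1
  set κ0 := 2 ^ (k + 1) * φ * (1 + |⟪y, g⟫|) with hκ0
  have hκ1n : 0 ≤ κ1 := by positivity
  have hκ0n : 0 ≤ κ0 := by positivity
  have hHH : ∀ r, HH (stdGaussian E) (fun z => lam (mix W y z)) (a (lin e y r))
      ≤ ENNReal.ofReal (κ0 + κ1 * (M + 1)) * a (lin e y r) := by
    intro r
    apply HH_gauss (hlam.comp (measurable_mix_right W y)) hκ0n hκ1n hM0 hf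
    · intro z
      refine (hb y z).trans (le_of_eq ?_)
      rw [hκ0, hκ1]
      ring
    · have := hcap.lower (lin e y r)
      rw [hMu] at this
      exact this
  -- the bound of the cap
  have hcapu : ∀ r, a (lin e y r) ≤ q y * ENNReal.ofReal
      (Real.exp (P.p * (NN W0 W y0 + r ^ 2) - P.Lam * k)) := by
    intro r
    have := hcap.upper (lin e y r)
    rw [hqu, hNu] at this
    exact this
  -- pointwise comparison
  set c1 : ℝ := (κ0 + κ1 * (M + 1)) * Real.exp (P.p * NN W0 W y0 - P.Lam * k) with hc1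
  have hc1n : 0 ≤ c1 := by positivity
  have hpt : ∀ r ∈ Ioi (0:ℝ), ENNReal.ofReal r * gaussianPDF 0 1 r
      * HH (stdGaussian E) (fun z => lam (mix W y z)) (a (lin e y r)) * nz {u | lin e y u ∈ G} r
      ≤ ENNReal.ofReal c1 * q y * (ENNReal.ofReal (r * Real.exp (-((1 / 2 - P.p') * r ^ 2)))
        * nz {u | lin e y u ∈ G} r) := by
    intro r hr
    have hr0 : 0 < r := hr
    calc ENNReal.ofReal r * gaussianPDF 0 1 r
      * HH (stdGaussian E) (fun z => lam (mix W y z)) (a (lin e y r)) * nz {u | lin e y u ∈ G} r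
        ≤ ENNReal.ofReal r * gaussianPDF 0 1 r
          * (ENNReal.ofReal (κ0 + κ1 * (M + 1)) * (q y * ENNReal.ofReal
            (Real.exp (P.p * (NN W0 W y0 + r ^ 2) - P.Lam * k)))) * nz {u | lin e y u ∈ G} r := by
          gcongr
          exact (hHH r).trans (mul_le_mul_right (hcapu r) _)
      _ = (ENNReal.ofReal r * gaussianPDF 0 1 r * ENNReal.ofReal (κ0 + κ1 * (M + 1))
            * ENNReal.ofReal (Real.exp (P.p * (NN W0 W y0 + r ^ 2) - P.Lam * k))) * q y
              * nz {u | lin e y u ∈ G} r := by ring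
      _ ≤ (ENNReal.ofReal c1 * ENNReal.ofReal (r * Real.exp (-((1 / 2 - P.p') * r ^ 2)))) * q y
              * nz {u | lin e y u ∈ G} r := by
          have hmain : ENNReal.ofReal r * gaussianPDF 0 1 r * ENNReal.ofReal (κ0 + κ1 * (M + 1))
            * ENNReal.ofReal (Real.exp (P.p * (NN W0 W y0 + r ^ 2) - P.Lam * k))
              ≤ ENNReal.ofReal c1 * ENNReal.ofReal (r * Real.exp (-((1 / 2 - P.p') * r ^ 2))) := by
            unfold gaussianPDF
            rw [← ENNReal.ofReal_mul hr0.le, ← ENNReal.ofReal_mul (by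
                have := gaussianPDFReal_nonneg 0 1 r; positivity),
              ← ENNReal.ofReal_mul (by have := gaussianPDFReal_nonneg 0 1 r; positivity),
              ← ENNReal.ofReal_mul hc1n]
            apply ENNReal.ofReal_le_ofReal
            rw [gpdf_form, hc1]
            have e1 : Real.exp (P.p * (NN W0 W y0 + r ^ 2) - P.Lam * k)
                = Real.exp (P.p * NN W0 W y0 - P.Lam * k) * Real.exp (P.p * r ^ 2) := by
              rw [← Real.exp_add]; congr 1; ring
            have e2 : Real.exp (-(r ^ 2) / 2) * Real.exp (P.p * r ^ 2)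
                ≤ Real.exp (-((1 / 2 - P.p') * r ^ 2)) := by
              rw [← Real.exp_add]
              apply Real.exp_le_exp.mpr
              have := P.lt1
              nlinarith [sq_nonneg r]
            rw [e1]
            have e3 : r * ((√(2 * Real.pi))⁻¹ * Real.exp (-(r ^ 2) / 2)) * (κ0 + κ1 * (M + 1))
                * (Real.exp (P.p * NN W0 W y0 - P.Lam * k) * Real.exp (P.p * r ^ 2))
                = (√(2 * Real.pi))⁻¹ * ((κ0 + κ1 * (M + 1))
                  * Real.exp (P.p * NN W0 W y0 - P.Lam * k)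
                  * (r * (Real.exp (-(r ^ 2) / 2) * Real.exp (P.p * r ^ 2)))) := by ring
            rw [e3]
            calc _ ≤ 1 * ((κ0 + κ1 * (M + 1)) * Real.exp (P.p * NN W0 W y0 - P.Lam * k)
                  * (r * Real.exp (-((1 / 2 - P.p') * r ^ 2)))) := by
                  apply mul_le_mul inv_sqrt_le_one _ (by positivity) (by norm_num)
                  gcongr
              _ = _ := by ring
          exact mul_le_mul_left (mul_le_mul_left hmain _) _
      _ = _ := by ring
  have hSm : MeasurableSet {u | lin e y u ∈ G} := measurable_lin_right e y hG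
  have hint : ∫⁻ r in Ioi (0:ℝ), ENNReal.ofReal r * gaussianPDF 0 1 r
      * HH (stdGaussian E) (fun z => lam (mix W y z)) (a (lin e y r)) * nz {u | lin e y u ∈ G} r
      ≤ ENNReal.ofReal c1 * q y * YG (1 / 2 - P.p') e G y := by
    refine (setLIntegral_mono' measurableSet_Ioi hpt).trans (le_of_eq ?_)
    unfold YG YY
    rw [lintegral_const_mul]
    refine Measurable.mul (by fun_prop) (measurable_nz hSm)
  have ht2 : |⟪y, g⟫| ^ 2 ≤ NN W0 W y0 := by
    have e1 : ⟪y, g⟫ = ⟪W.starProjection y0 - W0.starProjection y0, g⟫ := by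
      rw [inner_sub_left, Submodule.inner_starProjection_left_eq_right,
        Submodule.inner_starProjection_left_eq_right,
        Submodule.starProjection_eq_self_iff.mpr hgW, proj_eq_zero hg0, inner_zero_right, sub_zero,
        hy0]
      unfold lin
      rw [inner_add_left, inner_sub_left, inner_smul_left, inner_smul_left]
      rw [real_inner_comm] at hge
      rw [hge]
      simp
    have e2 : |⟪y, g⟫| ≤ ‖W.starProjection y0 - W0.starProjection y0‖ := by
      rw [e1]
      refine (abs_real_inner_le_norm _ _).trans ?_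
      calc _ ≤ ‖W.starProjection y0 - W0.starProjection y0‖ * 1 := by gcongr
        _ = _ := mul_one _
    unfold NN
    exact pow_le_pow_left₀ (abs_nonneg _) e2 2
  have hδ : 0 < P.p' - P.p := sub_pos.mpr P.lt1
  have hδ1 : P.p' - P.p ≤ 1 := by
    have := P.lt2
    have := P.p_nonneg
    linarith
  have hc : 4 * c1 ≤ 16 * φ * (1 + 1 / (P.p' - P.p)) * Mf y
      * ((4 * Real.exp (-P.Lam)) ^ k * Real.exp (P.p' * NN W0 W y0)) := by
    have h1 : κ0 + κ1 * (M + 1) ≤ 2 ^ (k + 1) * φ * ((1 + |⟪y, g⟫|) * (Mf y * 2 ^ (k + 1))) := by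
      have e1 : κ0 + κ1 * (M + 1) = 2 ^ (k + 1) * φ * ((1 + |⟪y, g⟫|) + (M + 1)) := by
        rw [hκ0, hκ1]; ring
      rw [e1]
      apply mul_le_mul_of_nonneg_left _ (by positivity)
      have h3 : (2:ℝ) ≤ Mf y * 2 ^ k := by nlinarith
      have h4 : Mf y * 2 ^ (k + 1) = 2 * M := by rw [hMdef]; ring
      rw [h4]
      have h5 : 0 ≤ |⟪y, g⟫| := abs_nonneg _
      rw [hMdef]
      nlinarith
    have h2 := one_add_le hδ hδ1 (abs_nonneg ⟪y, g⟫)
    have h3 : Real.exp ((P.p' - P.p) * |⟪y, g⟫| ^ 2) ≤ Real.exp ((P.p' - P.p) * NN W0 W y0) := by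
      apply Real.exp_le_exp.mpr
      exact mul_le_mul_of_nonneg_left ht2 hδ.le
    have h4 : 1 + |⟪y, g⟫| ≤ (1 + 1 / (P.p' - P.p)) * Real.exp ((P.p' - P.p) * NN W0 W y0) :=
      h2.trans (mul_le_mul_of_nonneg_left h3 (by positivity))
    calc 4 * c1 ≤ 4 * ((2 ^ (k + 1) * φ * ((1 + |⟪y, g⟫|) * (Mf y * 2 ^ (k + 1))))
          * Real.exp (P.p * NN W0 W y0 - P.Lam * k)) := by
          rw [hc1]
          gcongr
      _ ≤ 4 * ((2 ^ (k + 1) * φ * (((1 + 1 / (P.p' - P.p))
          * Real.exp ((P.p' - P.p) * NN W0 W y0)) * (Mf y * 2 ^ (k + 1))))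
          * Real.exp (P.p * NN W0 W y0 - P.Lam * k)) := by gcongr
      _ = 16 * φ * (1 + 1 / (P.p' - P.p)) * Mf y
          * ((2 ^ k * 2 ^ k) * (Real.exp ((P.p' - P.p) * NN W0 W y0)
            * Real.exp (P.p * NN W0 W y0 - P.Lam * k))) := by ring
      _ = _ := by
          have e5 : Real.exp ((P.p' - P.p) * NN W0 W y0) * Real.exp (P.p * NN W0 W y0 - P.Lam * k)
              = Real.exp (-P.Lam) ^ k * Real.exp (P.p' * NN W0 W y0) := by
            rw [← Real.exp_nat_mul, ← Real.exp_add, ← Real.exp_add]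
            congr 1
            ring
          have e6 : (2:ℝ) ^ k * 2 ^ k = 4 ^ k := by
            rw [← mul_pow]; norm_num
          rw [e5, e6, mul_pow]
          ring
  calc 4 * ∫⁻ r in Ioi (0:ℝ), ENNReal.ofReal r * gaussianPDF 0 1 r
      * HH (stdGaussian E) (fun z => lam (mix W y z)) (a (lin e y r)) * nz {u | lin e y u ∈ G} r
      ≤ 4 * (ENNReal.ofReal c1 * q y * YG (1 / 2 - P.p') e G y) := by gcongr
    _ = ENNReal.ofReal (4 * c1) * (q y * YG (1 / 2 - P.p') e G y) := by
        rw [ENNReal.ofReal_mul (p := 4) (q := c1) (by norm_num)]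
        simp only [ENNReal.ofReal_ofNat]
        ring
    _ ≤ ENNReal.ofReal (16 * φ * (1 + 1 / (P.p' - P.p)) * Mf y
      * ((4 * Real.exp (-P.Lam)) ^ k * Real.exp (P.p' * NN W0 W y0)))
        * (q y * YG (1 / 2 - P.p') e G y) := by
        gcongr
    _ = _ := by
        unfold KK ww gw
        rw [ENNReal.ofReal_mul (p := 16 * φ * (1 + 1 / (P.p' - P.p)) * Mf y) (by positivity),
          ENNReal.ofReal_mul (p := (4 * Real.exp (-P.Lam)) ^ k) (by positivity),
          ENNReal.ofReal_pow (by positivity), ← hkdef]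
        ring

/-- the smallness of the factor per dimension -/
structure Small (P : Prm) (β : ℝ≥0∞) : Prop where
  fac : ENNReal.ofReal (4 * Real.exp (-P.Lam)) * Bf P.p' ≤ β
  le_one : β ≤ 1
  cls : 2 * β * P.Cc ≤ 1

lemma fib_ww {P : Prm} {β : ℝ≥0∞} (hβ : Small P β) {W0 Wp W : Submodule ℝ E} (h01 : W0 ≤ Wp)
    (h1 : Wp < W) {e : E} (he : ‖e‖ = 1) (heW : e ∈ W) (he0 : e ∈ W0ᗮ)
    (hor : e ∈ Wp ∨ e ∈ Wpᗮ) (y : E) :
    fib Wp (ww P W0 W e) y ≤ β * ww P W0 Wp e y := by
  have hp0 : 0 ≤ P.p' := P.p_nonneg.trans P.lt1.le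
  have hd : 1 ≤ finrank ℝ W - finrank ℝ Wp := by
    have := Submodule.finrank_lt_finrank_of_lt h1
    omega
  have hkk : kk W0 W = kk W0 Wp + (finrank ℝ W - finrank ℝ Wp) := by
    unfold kk
    have a1 := Submodule.finrank_mono h01
    have a2 := Submodule.finrank_mono h1.le
    omega
  set c := ENNReal.ofReal (4 * Real.exp (-P.Lam)) with hc
  set d := finrank ℝ W - finrank ℝ Wp with hdd
  have e1 : fib Wp (ww P W0 W e) y = c ^ kk W0 W * fib Wp (gw P.p' W0 W e) y := by
    unfold ww
    exact fib_mul (inv_const Wp _) (measurable_gw _ _ _ _) y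
  rw [e1, hkk, pow_add]
  calc c ^ kk W0 Wp * c ^ d * fib Wp (gw P.p' W0 W e) y
      ≤ c ^ kk W0 Wp * c ^ d * (gw P.p' W0 Wp e y * Bf P.p' ^ d) := by
        gcongr
        exact fib_gw hp0 P.lt2 h01 h1.le he heW he0 hor y
    _ = (c * Bf P.p') ^ d * (c ^ kk W0 Wp * gw P.p' W0 Wp e y) := by
        rw [mul_pow]; ring
    _ ≤ β * (c ^ kk W0 Wp * gw P.p' W0 Wp e y) := by
        gcongr
        calc (c * Bf P.p') ^ d ≤ β ^ d := by gcongr; exact hβ.fac
          _ ≤ β ^ 1 := pow_le_pow_right_of_le_one' hβ.le_one hd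
          _ = β := pow_one β
    _ = β * ww P W0 Wp e y := rfl

lemma fib_tsum {W : Submodule ℝ E} {F : ℕ → E → ℝ≥0∞} (hF : ∀ k, Measurable (F k)) (x : E) :
    fib W (fun y => ∑' k, F k y) x = ∑' k, fib W (F k) x := by
  unfold fib
  exact lintegral_tsum fun k => ((hF k).comp (measurable_mix_right W x)).aemeasurable

lemma KK_inv {P : Prm} {φ : ℝ} {W0 : Submodule ℝ E} {q : E → ℝ≥0∞} {Mf : E → ℝ}
    (hqW : Inv W0 q) (hMW : ∀ x, ∀ w ∈ W0ᗮ, Mf (x + w) = Mf x) : Inv W0 (KK P φ q Mf) := by
  intro x w hw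
  unfold KK
  rw [hqW x w hw, hMW x w hw]

lemma split_cls {G : Set E} {c : E → ℕ} (F : ℕ → E → ℝ≥0∞) (y : E) :
    G.indicator 1 y * F (c y) y
      = ∑' k, (G ∩ {z | c z = k}).indicator (1 : E → ℝ≥0∞) y * F k y := by
  rw [tsum_eq_single (c y)]
  · by_cases h : y ∈ G
    · rw [indicator_of_mem h, indicator_of_mem (show y ∈ G ∩ {z | c z = c y} from ⟨h, rfl⟩)]
    · rw [indicator_of_notMem h, indicator_of_notMem (fun h' => h h'.1)]
  · intro k hk
    rw [indicator_of_notMem, zero_mul]
    rintro ⟨-, h⟩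
    exact hk h.symm

/-- **the cost of one direction, summed over the tree** -/
theorem dir_sum {P : Prm} {β : ℝ≥0∞} (hβ : Small P β) {W0 : Submodule ℝ E} {φ : ℝ} (hφ : 0 ≤ φ)
    {q : E → ℝ≥0∞} {Mf : E → ℝ} (hM1 : ∀ y, 1 ≤ Mf y) (hqW : Inv W0 q)
    (hMW : ∀ x, ∀ w ∈ W0ᗮ, Mf (x + w) = Mf x) (hqm : Measurable q) (hMm : Measurable Mf)
    {L : Set E} (hL : Convex ℝ L) (hLm : MeasurableSet L)
    {lam : Submodule ℝ E → E → ℝ} (hlam : ∀ W, Measurable (lam W)) {e : E} (he : ‖e‖ = 1)
    (he0 : e ∈ W0ᗮ) (T : Tree E ι) :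
    ∀ (Wp : Submodule ℝ E) (_ : W0 ≤ Wp) (_ : e ∈ Wp ∨ e ∈ Wpᗮ) (_ : Good T)
      (_ : Adm P W0 q Mf Wp T) (_ : AllW (fun W => DirOK W0 φ e W (lam W)) T)
      (G : Set E) (_ : MeasurableSet G) (_ : InvS Wp G) (x : E),
      fib W0 (fun y => G.indicator 1 y * dirCost L lam e T y) x
        ≤ 2 * β * KK P φ q Mf x
          * fib W0 (fun y => ww P W0 Wp e y * YG (1 / 2 - P.p') e G y) x := by
  induction T with
  | leaf i =>
    intro Wp _ _ _ _ _ G _ _ x
    simp only [dirCost_leaf, mul_zero, fib_const]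
    exact bot_le
  | node W a c T ih =>
    intro Wp h01 hor hT hA hD G hG hGi x
    obtain ⟨ha, haW, hc, hcW, hab, hg⟩ := hT
    obtain ⟨hlt, hcap, hcls, hAk⟩ := hA
    obtain ⟨hDW, hDk⟩ := hD
    have h0W : W0 ≤ W := h01.trans hlt.le
    have heW : e ∈ W := hDW.mem
    have hkk1 : 1 ≤ kk W0 W := by
      unfold kk
      have a1 := Submodule.finrank_lt_finrank_of_lt (lt_of_le_of_lt h01 hlt)
      omega
    have hW0e : W0 ≤ perp e := le_perp he0
    have mLc : Measurable (Lᶜ.indicator (1 : E → ℝ≥0∞)) := measurable_one.indicator hLm.compl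
    have mG : Measurable (G.indicator (1 : E → ℝ≥0∞)) := measurable_one.indicator hG
    have mN : Measurable (nodeCost W a (Lᶜ.indicator 1) (exitI L (lam W) e)) :=
      measurable_nodeCost ha mLc (measurable_exitI hLm (hlam W) e)
    have mKK : Measurable (KK P φ q Mf) := by
      unfold KK
      exact (ENNReal.measurable_ofReal.comp (hMm.const_mul _)).mul hqm
    have mww : ∀ V, Measurable (ww P W0 V e) := fun V => measurable_ww P W0 V e
    have mYG : ∀ {H : Set E}, MeasurableSet H → Measurable (YG (1 / 2 - P.p') e H) :=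
      fun hH => measurable_YG _ e hH
    have mdk : ∀ k, Measurable (dirCost L lam e (T k)) := fun k =>
      measurable_dirCost (hg k) hLm hlam e
    have hGk : ∀ k, MeasurableSet (G ∩ {z | c z = k}) := fun k =>
      hG.inter (hc (measurableSet_singleton k))
    set τ := 1 / 2 - P.p' with hτ
    -- the basic integral
    set S := fib W0 (fun y => ww P W0 W e y * YG τ e G y) x with hS
    have hSle : S ≤ β * fib W0 (fun y => ww P W0 Wp e y * YG τ e G y) x := by
      have hYi : Inv Wp (YG τ e G) := inv_YG hor hGi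
      have m1 : Measurable fun y => ww P W0 W e y * YG τ e G y := (mww W).mul (mYG hG)
      rw [hS, ← fib_tower h01 m1]
      have e1 : ∀ y, fib Wp (fun y => ww P W0 W e y * YG τ e G y) y
          ≤ β * (ww P W0 Wp e y * YG τ e G y) := by
        intro y
        have e2 : (fun y => ww P W0 W e y * YG τ e G y) = fun y => YG τ e G y * ww P W0 W e y := by
          funext y; ring
        rw [e2, fib_mul hYi (mww W)]
        calc YG τ e G y * fib Wp (ww P W0 W e) y ≤ YG τ e G y * (β * ww P W0 Wp e y) := by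
              gcongr
              exact fib_ww hβ h01 hlt he heW he0 hor y
          _ = _ := by ring
      refine (fib_mono e1 x).trans (le_of_eq ?_)
      exact fib_mul (inv_const W0 β) ((mww Wp).mul (mYG hG)) x
    -- the node itself
    have own : fib W0 (fun y => G.indicator 1 y
        * nodeCost W a (Lᶜ.indicator 1) (exitI L (lam W) e) y) x ≤ KK P φ q Mf x * S := by
      have m1 : Measurable fun y => G.indicator 1 y
        * nodeCost W a (Lᶜ.indicator 1) (exitI L (lam W) e) y := mG.mul mN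
      rw [← fib_tower hW0e m1]
      refine (fib_mono (fun y => node_dir h0W hφ hkk1 hM1 hqW hMW ha hcap he he0 hL hLm (hlam W)
        hDW hG y) x).trans (le_of_eq ?_)
      exact fib_mul (KK_inv hqW hMW) ((mww W).mul (mYG hG)) x
    -- the children
    have chi : fib W0 (fun y => G.indicator 1 y * dirCost L lam e (T (c y)) y) x
        ≤ KK P φ q Mf x * S := by
      have e1 : (fun y => G.indicator 1 y * dirCost L lam e (T (c y)) y)
          = fun y => ∑' k, (G ∩ {z | c z = k}).indicator (1 : E → ℝ≥0∞) y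
            * dirCost L lam e (T k) y := by
        funext y
        exact split_cls (fun k => dirCost L lam e (T k)) y
      rw [e1, fib_tsum (F := fun k y => (G ∩ {z | c z = k}).indicator (1 : E → ℝ≥0∞) y
            * dirCost L lam e (T k) y) fun k => (measurable_one.indicator (hGk k)).mul (mdk k)]
      have hinv : ∀ k, InvS W (G ∩ {z | c z = k}) := by
        intro k z w hw
        have h1 := hGi z w (Submodule.orthogonal_le hlt.le hw)
        have h2 := hcW z w hw
        simp only [mem_inter_iff, mem_setOf_eq, h1, h2]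
      have step : ∀ k, fib W0 (fun y => (G ∩ {z | c z = k}).indicator (1 : E → ℝ≥0∞) y
            * dirCost L lam e (T k) y) x
          ≤ 2 * β * KK P φ q Mf x
            * fib W0 (fun y => ww P W0 W e y * YG τ e (G ∩ {z | c z = k}) y) x := fun k =>
        ih k W h0W (Or.inl heW) (hg k) (hAk k) (hDk k) _ (hGk k) (hinv k) x
      refine (ENNReal.tsum_le_tsum step).trans ?_
      rw [ENNReal.tsum_mul_left,
        ← fib_tsum (F := fun k y => ww P W0 W e y * YG τ e (G ∩ {z | c z = k}) y)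
          fun k => (mww W).mul (mYG (hGk k))]
      have e2 : ∀ y, ∑' k, ww P W0 W e y * YG τ e (G ∩ {z | c z = k}) y
          ≤ P.Cc * (ww P W0 W e y * YG τ e G y) := by
        intro y
        rw [ENNReal.tsum_mul_left]
        calc ww P W0 W e y * ∑' k, YG τ e (G ∩ {z | c z = k}) y
            ≤ ww P W0 W e y * (P.Cc * YG τ e G y) := by
              gcongr
              exact hcls e heW he0 he y {u | lin e y u ∈ G} (measurable_lin_right e y hG)
          _ = _ := by ring
      calc 2 * β * KK P φ q Mf x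
            * fib W0 (fun y => ∑' k, ww P W0 W e y * YG τ e (G ∩ {z | c z = k}) y) x
          ≤ 2 * β * KK P φ q Mf x * (P.Cc * S) := by
            gcongr
            refine (fib_mono e2 x).trans (le_of_eq ?_)
            exact fib_mul (inv_const W0 P.Cc) ((mww W).mul (mYG hG)) x
        _ = (2 * β * P.Cc) * (KK P φ q Mf x * S) := by ring
        _ ≤ 1 * (KK P φ q Mf x * S) := by
            gcongr
            exact hβ.cls
        _ = _ := one_mul _
    have e3 : (fun y => G.indicator 1 y * dirCost L lam e (node W a c T) y)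
        = fun y => G.indicator 1 y * nodeCost W a (Lᶜ.indicator 1) (exitI L (lam W) e) y
          + G.indicator 1 y * dirCost L lam e (T (c y)) y := by
      funext y
      rw [dirCost_node, mul_add]
    rw [e3, fib_add (f := fun y => G.indicator 1 y
      * nodeCost W a (Lᶜ.indicator 1) (exitI L (lam W) e) y) (mG.mul mN)]
    calc _ ≤ KK P φ q Mf x * S + KK P φ q Mf x * S := add_le_add own chi
      _ = 2 * KK P φ q Mf x * S := by ring
      _ ≤ 2 * KK P φ q Mf x * (β * fib W0 (fun y => ww P W0 Wp e y * YG τ e G y) x) := by gcongr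
      _ = _ := by ring

end Vale.Agent.P262.H698
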